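import Crest.Agent.N207.Lg.Hom

/-!
# Row 207 (helper54): closed form of the Lagrangian
-/

set_option autoImplicit false
set_option linter.unusedSectionVars false

open Finset

noncomputable section

namespace Crest.Agent.N207.Lg

variable {ι 𝕜 : Type*} [Fintype ι] [Field 𝕜]

/-- all indices raised -/
def rs3 (H : M2 ι 𝕜) (T : M3 ι 𝕜) : M3 ι 𝕜 := fun c a b =>
  ∑ x, ∑ y, ∑ z, H c x * H a y * H b z * T x y z

/-- `⟨T, T'⟩_H` -/
def n3 (H : M2 ι 𝕜) (T T' : M3 ι 𝕜) : 𝕜 := ∑ c, ∑ a, ∑ b, T c a b * rs3 H T' c a b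

/-- `T_{cab} T'^{acb}` -/
def x3 (H : M2 ι 𝕜) (T T' : M3 ι 𝕜) : 𝕜 := ∑ c, ∑ a, ∑ b, T c a b * rs3 H T' a c b

theorem rs3_sy (H : M2 ι 𝕜) {T : M3 ι 𝕜} (hT : Sy3 T) : Sy3 (rs3 H T) := fun c a b => by
  simp only [rs3]
  perm3 x y z => (x, z, y); rw [hT x y z]; ring

theorem rs3_low (H : M2 ι 𝕜) (T : M3 ι 𝕜) : rs3 H (low T) = low (rs3 H T) := by
  funext l a j
  have h : ∀ (x a b d : 𝕜), x * (1 / 2 * (a + b - d)) = 1 / 2 * (x * a) + 1 / 2 * (x * b) -
      1 / 2 * (x * d) := fun x a b d => by ring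
  have h1 : ∑ x, ∑ y, ∑ z, H l x * H a y * H j z * T y z x =
      ∑ x, ∑ y, ∑ z, H a x * H j y * H l z * T x y z := by
    perm3 x y z => (y, z, x); ring
  have h2 : ∑ x, ∑ y, ∑ z, H l x * H a y * H j z * T z y x =
      ∑ x, ∑ y, ∑ z, H j x * H a y * H l z * T x y z := by
    perm3 x y z => (z, y, x); ring
  simp only [rs3, low, h, sum_add_distrib, sum_sub_distrib, ← mul_sum]
  rw [h1, h2]; ring

theorem chr_tr' [CharZero 𝕜] {H : M2 ι 𝕜} {T : M3 ι 𝕜} (hH : Sy2 H) (hT : Sy3 T) (l : ι) :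
    ∑ k, chr H T k k l = (1 / 2) * vT H T l := by
  have h : ∀ (x a b d : 𝕜), x * (1 / 2 * (a + b - d)) = 1 / 2 * (x * a) + 1 / 2 * (x * b) -
      1 / 2 * (x * d) := fun x a b d => by ring
  have h3 : ∑ k, ∑ m, H k m * T k l m = ∑ k, ∑ m, H k m * T m k l := by
    rw [sum_comm]
    exact sum_congr rfl fun k _ => sum_congr rfl fun m _ => by rw [hT m l k, hH m k]
  simp only [chr, low, h, sum_add_distrib, sum_sub_distrib, ← mul_sum, vT, tr2]
  rw [h3]; ring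

/-- closed form of the polarised `ΓΓ` form -/
theorem tr2_cc [CharZero 𝕜] {H : M2 ι 𝕜} {T T' : M3 ι 𝕜} (hH : Sy2 H) (hT : Sy3 T)
    (hT' : Sy3 T') : tr2 H (cc (chr H T) (chr H T')) =
      -(1 / 4) * n3 H T T' + (1 / 2) * x3 H T T' - (1 / 2) * ip1 H (vT H T) (gv H T') := by
  have hU := rs3_sy H hT'
  have e1 : ∑ i, ∑ j, H i j * ∑ k, ∑ l, chr H T k j l * chr H T' l k i =
      ∑ a, ∑ j, ∑ l, low T a j l * rs3 H (low T') l a j := by
    have : ∀ j l, ∑ i, ∑ k, H i j * (chr H T k j l * chr H T' l k i) =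
        ∑ a, low T a j l * rs3 H (low T') l a j := fun j l => by
      simp only [chr, rs3, mul_sum, sum_mul]
      perm4 i k b a => (a, b, k, i); rw [hH i j, hH k a]; ring
    simp only [mul_sum]
    calc _ = ∑ j, ∑ l, ∑ i, ∑ k, H i j * (chr H T k j l * chr H T' l k i) := by
          perm4 i j k l => (j, l, i, k)
      _ = _ := by
          simp only [this]
          perm3 j l a => (a, j, l)
  have e2 : ∑ i, ∑ j, H i j * ∑ k, ∑ l, chr H T k k l * chr H T' l i j =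
      (1 / 2) * ip1 H (vT H T) (gv H T') := by
    have h1 : ∑ i, ∑ j, H i j * ∑ k, ∑ l, chr H T k k l * chr H T' l i j =
        ∑ l, (∑ c, ∑ m, chr H T' l c m * H c m) * ∑ k, chr H T k k l := by
      generalize chr H T = C
      generalize chr H T' = C'
      simp only [mul_sum, sum_mul]
      perm4 i j k l => (l, k, i, j); ring
    rw [h1, ip1_eq, mul_sum]
    exact sum_congr rfl fun l _ => by rw [chr_tr H T' hH, chr_tr' hH hT]; ring
  set U := rs3 H T' with hUd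
  have t1 : ∑ a, ∑ j, ∑ l, T j l a * U a j l = x3 H T T' := by
    simp only [x3, ← hUd]; perm3 a j l => (j, a, l); rw [hT j l a]
  have t2 : ∑ a, ∑ j, ∑ l, T j l a * U j a l = n3 H T T' := by
    simp only [n3, ← hUd]; perm3 a j l => (j, a, l); rw [hT j l a]
  have t3 : ∑ a, ∑ j, ∑ l, T j l a * U l a j = x3 H T T' := by
    simp only [x3, ← hUd]; perm3 a j l => (j, l, a); rw [hU l a j]
  have t4 : ∑ a, ∑ j, ∑ l, T l j a * U a j l = x3 H T T' := by
    simp only [x3, ← hUd]; perm3 a j l => (l, a, j); rw [hT l j a, hU a j l]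
  have t5 : ∑ a, ∑ j, ∑ l, T l j a * U j a l = x3 H T T' := by
    simp only [x3, ← hUd]; perm3 a j l => (l, j, a); rw [hU j a l]
  have t6 : ∑ a, ∑ j, ∑ l, T l j a * U l a j = n3 H T T' := by
    simp only [n3, ← hUd]; perm3 a j l => (l, j, a); rw [hU l a j]
  have t7 : ∑ a, ∑ j, ∑ l, T a j l * U a j l = n3 H T T' := rfl
  have t8 : ∑ a, ∑ j, ∑ l, T a j l * U j a l = x3 H T T' := rfl
  have t9 : ∑ a, ∑ j, ∑ l, T a j l * U l a j = x3 H T T' := by
    simp only [x3, ← hUd]; perm3 a j l => (a, l, j); rw [hT a j l]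
  have h : ∀ a b c d e f : 𝕜, 1 / 2 * (a + b - c) * (1 / 2 * (d + e - f)) =
      1 / 4 * (a * d) + 1 / 4 * (a * e) - 1 / 4 * (a * f) + 1 / 4 * (b * d) + 1 / 4 * (b * e) -
        1 / 4 * (b * f) - 1 / 4 * (c * d) - 1 / 4 * (c * e) + 1 / 4 * (c * f) :=
    fun a b c d e f => by ring
  simp only [tr2, cc, mul_sub, sum_sub_distrib]
  rw [e1, e2, rs3_low, ← hUd]
  simp only [low, h, sum_add_distrib, sum_sub_distrib, ← mul_sum]
  rw [t1, t2, t3, t4, t5, t6, t7, t8, t9]; ring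

theorem ell_eq [CharZero 𝕜] {H : M2 ι 𝕜} {T : M3 ι 𝕜} (hH : Sy2 H) (hT : Sy3 T) : ell H T =
    -(1 / 4) * n3 H T T + (1 / 2) * x3 H T T - (1 / 2) * ip1 H (vT H T) (gv H T) :=
  tr2_cc hH hT hT

/-- closed form of the gauge-fixed Lagrangian -/
theorem fgf_eq [CharZero 𝕜] (s : 𝕜) {H : M2 ι 𝕜} {T : M3 ι 𝕜} (ρ : M2 ι 𝕜) (hH : Sy2 H)
    (hT : Sy3 T) : fgf s H T ρ = s * (tr2 H ρ - (1 / 4) * n3 H T T +
      (1 / 8) * ip1 H (vT H T) (vT H T) + (1 / 2) * (x3 H T T - ip1 H (uT H T) (uT H T))) := by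
  have e : gv H T = uT H T - (1 / 2 : 𝕜) • vT H T := rfl
  simp only [fgf, lag, gau, ell_eq hH hT, e, ip1_sub_left, ip1_sub_right, ip1_smul_left,
    ip1_smul_right, ip1_comm hH (vT H T) (uT H T)]
  ring

/-- `fl` against `chr` -/
theorem fl_chr [CharZero 𝕜] {H X : M2 ι 𝕜} {T : M3 ι 𝕜} (hH : Sy2 H) (hX : Sy2 X) (hT : Sy3 T)
    (c : ι) : fl X (chr H T) c = ∑ m, H c m * gv X T m - (1 / 2) * ∑ i, X c i * vT H T i := by
  have h1 : ∑ i, ∑ j, X i j * chr H T c i j = ∑ m, H c m * gv X T m := by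
    rw [← chr_tr H T hX]; exact sum_congr rfl fun _ _ => sum_congr rfl fun _ _ => mul_comm _ _
  have h2 : ∑ i, ∑ j, X i c * chr H T j j i = (1 / 2) * ∑ i, X c i * vT H T i := by
    simp only [← mul_sum, chr_tr' hH hT]
    rw [mul_sum]; exact sum_congr rfl fun i _ => by rw [hX i c]; ring
  rw [fl, h1, h2]

/-- `H g H = H` -/
theorem up_self {g H : M2 ι 𝕜} (hI : Iv g H) : up H g = H := by
  funext i j
  rw [← hI.l (fun m => H m j) i]
  simp only [up, mul_sum, mul_assoc]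

/-- `vG s H k = s H k̃ H`, `k̃ = (tr k / 2) g - k` -/
theorem vG_eq_up {g H : M2 ι 𝕜} (s : 𝕜) (k : M2 ι 𝕜) (hI : Iv g H) :
    vG s H k = s • up H (((1 / 2) * tr2 H k) • g - k) := by
  rw [up_sub, up_smul, up_self hI]; rfl

/-- `H k H'` -/
def up2 (H k H' : M2 ι 𝕜) : M2 ι 𝕜 := fun i j => ∑ a, ∑ b, H i a * k a b * H' b j

/-- the 4-linear form behind `qd` -/
def qd4 (H H' : M2 ι 𝕜) (T T' : M3 ι 𝕜) : M2 ι 𝕜 := fun i j =>
  -∑ k, chr (up2 H (T k) H') T' k i j + ∑ k, chr (up2 H (T j) H') T' k k i -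
    cc (chr H T) (chr H' T') i j +
    (1 / 2) * (gv (up2 H (T i) H') T' j + gv (up2 H (T j) H') T' i) +
    (1 / 2) * (gv H T i * gv H' T' j)

theorem qd_eq (H : M2 ι 𝕜) (T : M3 ι 𝕜) : qd H T = qd4 H H T T := by
  funext i j
  have e : ∀ k, up2 H k H = up H k := fun _ => rfl
  simp only [qd, redJ, ricJ, ricC, dchr, dgv, qd4, e, Pi.zero_apply, chr_zero, gv_zero, zero_sub,
    sum_neg_distrib]
  ring

theorem up2_sub1 (H H' k K : M2 ι 𝕜) : up2 (H - H') k K = up2 H k K - up2 H' k K := by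
  funext i j; simp only [up2, Pi.sub_apply, sub_mul, sum_sub_distrib]
theorem up2_sub2 (H k k' K : M2 ι 𝕜) : up2 H (k - k') K = up2 H k K - up2 H k' K := by
  funext i j; simp only [up2, Pi.sub_apply, sub_mul, mul_sub, sum_sub_distrib]
theorem up2_sub3 (H k K K' : M2 ι 𝕜) : up2 H k (K - K') = up2 H k K - up2 H k K' := by
  funext i j; simp only [up2, Pi.sub_apply, mul_sub, sum_sub_distrib]

theorem qd4_sub1 (H K H' : M2 ι 𝕜) (T T' : M3 ι 𝕜) :
    qd4 (H - K) H' T T' = qd4 H H' T T' - qd4 K H' T T' := by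
  funext i j
  simp only [qd4, up2_sub1, sub_chr, sub_gv, cc_sub_left, Pi.sub_apply, sum_sub_distrib]; ring
theorem qd4_sub2 (H H' K : M2 ι 𝕜) (T T' : M3 ι 𝕜) :
    qd4 H (H' - K) T T' = qd4 H H' T T' - qd4 H K T T' := by
  funext i j
  simp only [qd4, up2_sub3, sub_chr, sub_gv, cc_sub_right, Pi.sub_apply, sum_sub_distrib]; ring
theorem qd4_sub3 (H H' : M2 ι 𝕜) (T S T' : M3 ι 𝕜) :
    qd4 H H' (T - S) T' = qd4 H H' T T' - qd4 H H' S T' := by
  funext i j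
  simp only [qd4, Pi.sub_apply, up2_sub2, sub_chr, chr_sub, sub_gv, gv_sub', cc_sub_left,
    sum_sub_distrib]; ring
theorem qd4_sub4 (H H' : M2 ι 𝕜) (T T' S : M3 ι 𝕜) :
    qd4 H H' T (T' - S) = qd4 H H' T T' - qd4 H H' T S := by
  funext i j
  simp only [qd4, Pi.sub_apply, chr_sub, gv_sub', cc_sub_right, sum_sub_distrib]; ring

/-- telescoping -/
theorem qd_sub (H H' : M2 ι 𝕜) (T T' : M3 ι 𝕜) : qd H T - qd H' T' =
    qd4 (H - H') H T T + qd4 H' (H - H') T T + qd4 H' H' (T - T') T + qd4 H' H' T' (T - T') := by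
  rw [qd_eq, qd_eq, qd4_sub1, qd4_sub2, qd4_sub3, qd4_sub4]; abel

theorem cvJ_sub (g g' H H' : M2 ι 𝕜) (R : M4 ι 𝕜) :
    cvJ g H R - cvJ g' H' R = cvJ (g - g') H R + cvJ g' (H - H') R := by
  funext i j
  simp only [cvJ, Pi.sub_apply, Pi.add_apply, mul_sub, sub_mul, mul_add, sum_sub_distrib,
    sum_add_distrib]; ring

/-- `H - H' = - H (g - g') H'` -/
theorem inv_sub {g g' H H' : M2 ι 𝕜} (hI : Iv g H) (hI' : Iv g' H') [DecidableEq ι] :
    H - H' = -up2 H (g - g') H' := by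
  funext i j
  have h1 : up2 H g H' i j = H' i j := by
    rw [← hI.l (fun m => H' m j) i]; simp only [up2, mul_sum, mul_assoc]
  have h2 : up2 H g' H' i j = H i j := by
    have : ∀ a, ∑ b, g' a b * H' b j = if a = j then 1 else 0 := fun a => by
      have := hI'.r (fun m => if m = j then 1 else 0) a
      simpa using this
    simp only [up2, mul_assoc, ← mul_sum, this]; simp
  rw [up2_sub2, Pi.sub_apply, Pi.sub_apply, Pi.neg_apply, Pi.neg_apply, Pi.sub_apply,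
    Pi.sub_apply, h1, h2]; ring

end Crest.Agent.N207.Lg

end
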