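import Crest.Agent.N207.Lg.Flat
import Crest.Agent.N207.Lg.Alg4
import Crest.Agent.N207.AI.Glob1

/-!
# Row 207 (helper54): tensorial forms of the Lagrangian objects and naturality
-/

set_option autoImplicit false
set_option linter.unusedSectionVars false

open Finset Filter Set
open scoped Topology ContDiff
open Crest.GeometryTopology.CoordMetric Crest.GeometryTopology.ChartCurvature
  Crest.GeometryTopology.MetricFamily
open Crest.Agent.R202.Tens

noncomputable section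

namespace Crest.Agent.N207.Lg

variable {n : ℕ} {G gb K : MetricField n} {U : Set (En n)} {y : En n}

/-- tensor product of two 1-forms -/
def otT (u v : Tn n 1) : Tn n 2 := fun y I => u y ![I 0] * v y ![I 1]

/-- `(a, b, c) ↦ (b, c, a)` -/
def r3 : Equiv.Perm (Fin 3) := finRotate 3
/-- `(a, b, c) ↦ (b, a, c)` -/
def s3 : Equiv.Perm (Fin 3) := Equiv.swap 0 1
/-- `(a, b) ↦ (b, a)` -/
def s2 : Equiv.Perm (Fin 2) := Equiv.swap 0 1

theorem prm_r3 (T : Tn n 3) (y : En n) (a b c : Fin n) : prmT r3 T y ![a, b, c] = T y ![b, c, a] := by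
  simp only [prmT]; congr 1; funext i; fin_cases i <;> rfl
theorem prm_r3' (T : Tn n 3) (y : En n) (a b c : Fin n) :
    prmT r3.symm T y ![a, b, c] = T y ![c, a, b] := by
  simp only [prmT]; congr 1; funext i; fin_cases i <;> rfl
theorem prm_s3 (T : Tn n 3) (y : En n) (a b c : Fin n) : prmT s3 T y ![a, b, c] = T y ![b, a, c] := by
  simp only [prmT]; congr 1; funext i; fin_cases i <;> rfl
theorem prm_s2 (T : Tn n 2) (y : En n) (a b : Fin n) : prmT s2 T y ![a, b] = T y ![b, a] := by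
  simp only [prmT]; congr 1; funext i; fin_cases i <;> rfl

/-- `G^{ab} T_{jab}` -/
def vTT (G : MetricField n) (T : Tn n 3) : Tn n 1 := trT G (prmT r3.symm T)

/-- `G^{ca} T_{caj} - G^{ab} T_{jab} / 2` -/
def gvT (G : MetricField n) (T : Tn n 3) : Tn n 1 := trT G T - (1 / 2 : ℝ) • vTT G T

/-- `tr_G K` -/
def trS (G K : MetricField n) (y : En n) : ℝ := trT G (matT K) y ![]

/-- `(tr_G K / 2) G - K`: MINUS the trace reversal -/
def ktT (G K : MetricField n) : Tn n 2 := smT (fun y => (1 / 2) * trS G K y) (matT G) - matT K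

/-- the scalar `lagF / √G` -/
def lagS (gb G : MetricField n) (y : En n) : ℝ :=
  tr2 (iv G y) (ricci gb y) + ell (iv G y) (TG gb G y)

/-- the scalar `fgfF / √G` -/
def fgfS (gb G : MetricField n) (y : En n) : ℝ := lagS gb G y - (1 / 2) * nsq G (gauT gb G) y

/-- the 1-form of `fluxF` -/
def omE (gb G : MetricField n) : Tn n 1 := gauT gb G - (1 / 2 : ℝ) • vTT G (cov gb (matT G))

/-- the 1-form of `wL` -/
def omL (gb G K : MetricField n) : Tn n 1 :=
  (1 / 2 : ℝ) • conT G (ktT G K) (cov gb (matT G)) -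
    conT G (ktT G K) (prmT r3 (cov gb (matT G))) +
    (1 / 2 : ℝ) • conT G (vTT G (cov gb (matT G))) (ktT G K)

/-- the 1-form of `wF` -/
def omF (gb G K : MetricField n) : Tn n 1 := omL gb G K + conT G (gauT gb G) (ktT G K)

theorem vTT_ap (G : MetricField n) (T : Tn n 3) (y : En n) (j : Fin n) :
    vTT G T y ![j] = vT (iv G y) (a3 (T y)) j := by
  simp only [vTT, trT, vT, tr2]
  exact sum_congr rfl fun a _ => sum_congr rfl fun b _ => congrArg _ (prm_r3' T y a b j)

theorem gvT_ap (G : MetricField n) (T : Tn n 3) (y : En n) (j : Fin n) :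
    gvT G T y ![j] = gv (iv G y) (a3 (T y)) j := by
  simp only [gvT, Pi.sub_apply, Pi.smul_apply, vTT_ap, smul_eq_mul]; rfl

theorem gauT_ap (gb G : MetricField n) (y : En n) (j : Fin n) :
    gauT gb G y ![j] = gv (iv G y) (TG gb G y) j := rfl

theorem gauT_tens (gb G : MetricField n) : gauT gb G = gvT G (cov gb (matT G)) :=
  funext fun y => arr1_ext fun j => (gvT_ap G _ y j).symm

theorem redT_tens (gb G : MetricField n) : redT gb G = ricT G -
    (1 / 2 : ℝ) • (cov gb (gauT gb G) + prmT s2 (cov gb (gauT gb G))) +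
    (1 / 2 : ℝ) • otT (gauT gb G) (gauT gb G) :=
  funext fun y => arr2_ext fun a b => by
    simp only [Pi.add_apply, Pi.sub_apply, Pi.smul_apply, prm_s2, smul_eq_mul]; rfl

theorem trS_eq (G K : MetricField n) (y : En n) : trS G K y = tr2 (iv G y) (K y) := rfl

theorem ktT_ap (G K : MetricField n) (y : En n) :
    a2 (ktT G K y) = ((1 / 2) * tr2 (iv G y) (K y)) • (fun a b => G y a b) - fun a b => K y a b :=
  rfl

theorem ipA_one' (H : Matrix (Fin n) (Fin n) ℝ) (A B : Arr n 1) :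
    ipA H A B = ip1 (fun a b => H a b) (fun a => A ![a]) fun a => B ![a] := ipA_one A B

theorem ipA_two' {H : Matrix (Fin n) (Fin n) ℝ} (hH : Sy2 fun a b => H a b) (A B : Arr n 2) :
    ipA H A B = tr2 (up (fun a b => H a b) (a2 A)) (a2 B) := by
  rw [ipA_two, tr2_up]
  perm4 a b c d => (b, d, a, c)
  rw [show H b a = H a b from hH b a]; rfl

theorem ipA_three (H : Matrix (Fin n) (Fin n) ℝ) (A B : Arr n 3) :
    ipA H A B = n3 (fun a b => H a b) (a3 A) (a3 B) := by
  rw [ipA_succ]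
  simp only [ipA_two, n3, rs3, mul_sum]
  refine sum_congr rfl fun c _ => ?_
  calc _ = ∑ a, ∑ x, ∑ y, ∑ b, ∑ z, H c x * (H a y * H b z * (slA c A ![a, b] * slA x B ![y, z])) :=
        sum_comm
    _ = _ := by
        refine sum_congr rfl fun a _ => ?_
        perm4 x y b z => (b, x, y, z)
        change _ = A ![c, a, b] * (_ * B ![x, y, z])
        change _ * (_ * (A ![c, a, b] * B ![x, y, z])) = _
        ring

theorem x3_eq (H : M2 (Fin n) ℝ) (T T' : M3 (Fin n) ℝ) :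
    x3 H T T' = n3 H T fun c a b => T' a c b := by
  simp only [x3, n3, rs3]
  refine sum_congr rfl fun c _ => sum_congr rfl fun a _ => sum_congr rfl fun b _ => ?_
  congr 1
  perm3 x y z => (y, x, z); ring

theorem nsq_gauT (gb G : MetricField n) (y : En n) :
    nsq G (gauT gb G) y = ip1 (iv G y) (gv (iv G y) (TG gb G y)) (gv (iv G y) (TG gb G y)) :=
  ipA_one' _ _ _

theorem lagF_eq (gb G : MetricField n) (y : En n) : lagF gb G y = sq G y * lagS gb G y := rfl

theorem fgfF_eq (gb G : MetricField n) (y : En n) : fgfF gb G y = sq G y * fgfS gb G y := by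
  simp only [fgfF, fgf, gau, fgfS, nsq_gauT, lagS, lag]; ring

theorem lagS_tens (gb : MetricField n) (h : ∀ᶠ z in 𝓝 y, Sy2 (G z)) : lagS gb G y =
    trT G (ricT gb) y ![] - (1 / 4) * nsq G (cov gb (matT G)) y +
      (1 / 2) * ip G (cov gb (matT G)) (prmT s3 (cov gb (matT G))) y -
      (1 / 2) * ip G (vTT G (cov gb (matT G))) (gauT gb G) y := by
  have hH : Sy2 (iv G y) := sy_inv h.self_of_nhds
  have e1 : a3 (prmT s3 (cov gb (matT G)) y) = fun c a b => TG gb G y a c b := by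
    funext c a b; exact prm_s3 _ y c a b
  have e2 : (fun a => vTT G (cov gb (matT G)) y ![a]) = vT (iv G y) (TG gb G y) :=
    funext fun a => vTT_ap _ _ _ a
  simp only [lagS, nsq, ip, ipA_three, ipA_one', e1, e2, ell_eq hH (TG_sy gb h), x3_eq]
  change _ = tr2 (iv G y) (ricci gb y) - 1 / 4 * n3 (iv G y) (TG gb G y) (TG gb G y) +
    1 / 2 * n3 (iv G y) (TG gb G y) (fun c a b => TG gb G y a c b) -
    1 / 2 * ip1 (iv G y) (vT (iv G y) (TG gb G y)) (gv (iv G y) (TG gb G y))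
  ring

/-- the pairing with `δ(√G G⁻¹)` -/
theorem tr2_vG_eq (hd : (G y).det ≠ 0) (hs : Sy2 (G y)) (K : MetricField n) (X : Tn n 2) :
    tr2 (vG (sq G y) (iv G y) (K y)) (a2 (X y)) = sq G y * ip G (ktT G K) X y := by
  rw [ip, ipA_two' (sy_inv hs), ktT_ap, ← smul_tr2]
  exact congrArg (fun Z => tr2 Z _) (vG_eq_up (sq G y) (K y) (iv_of_det hd))

theorem fluxF_eq (gb : MetricField n) (h : ∀ᶠ z in 𝓝 y, Sy2 (G z)) (c : Fin n) :
    fluxF gb G c y = √(G y).det * ∑ j, (G y)⁻¹ c j * omE gb G y ![j] := by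
  have hH : Sy2 (iv G y) := sy_inv h.self_of_nhds
  simp only [fluxF, flux, fl_chr hH hH (TG_sy gb h), omE, Pi.sub_apply, Pi.smul_apply, vTT_ap,
    smul_eq_mul, mul_sub, sum_sub_distrib, gauT_ap, mul_sum]
  congr 2
  funext j
  change _ = sq G y * (iv G y c j * (1 / 2 * vT (iv G y) (TG gb G y) j)); ring

theorem conT_kt (h : Sy2 (G y)) (K : MetricField n) (W : Tn n 3) (m : Fin n) :
    conT G (ktT G K) W y ![m] = tr2 (up (iv G y) (a2 (ktT G K y))) (a3 (W y) m) :=
  ipA_two' (sy_inv h) _ _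

theorem conT_one (h : Sy2 (G y)) (w : Tn n 1) (X : Tn n 2) (c : Fin n) :
    ∑ m, iv G y c m * conT G w X y ![m] = ∑ j, up (iv G y) (a2 (X y)) c j * w y ![j] := by
  simp only [conT_apply, ipA_one, up, mul_sum, sum_mul]
  perm3 m a b => (a, m, b)
  rw [show iv G y b a = iv G y a b from sy_inv h b a]
  change iv G y c m * (iv G y a b * (w y ![a] * X y ![m, b])) = iv G y c m * X y ![m, b] * _ * _
  ring

theorem wL_eq (gb : MetricField n) (hd : (G y).det ≠ 0) (h : ∀ᶠ z in 𝓝 y, Sy2 (G z))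
    (hK : Sy2 (K y)) (c : Fin n) : wL (sq G y) (iv G y) (TG gb G y) (K y) c =
      √(G y).det * ∑ j, (G y)⁻¹ c j * omL gb G K y ![j] := by
  have hs := h.self_of_nhds
  have hH : Sy2 (iv G y) := sy_inv hs
  have hX := vG_sy (sq G y) hH hK
  have e : vG (sq G y) (iv G y) (K y) = sq G y • up (iv G y) (a2 (ktT G K y)) :=
    vG_eq_up (sq G y) (K y) (iv_of_det hd)
  have e1 : ∀ m, a3 (prmT r3 (cov gb (matT G)) y) m = fun a b => TG gb G y a b m := fun m => by
    funext a b; exact prm_r3 _ y m a b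
  have e2 := conT_one hs (vTT G (cov gb (matT G))) (ktT G K) c
  simp only [vTT_ap] at e2
  have e5 : ∀ m, omL gb G K y ![m] = -gv (up (iv G y) (a2 (ktT G K y))) (TG gb G y) m +
      (1 / 2) * conT G (vTT G (cov gb (matT G))) (ktT G K) y ![m] := fun m => by
    simp only [omL, Pi.add_apply, Pi.sub_apply, Pi.smul_apply, smul_eq_mul, conT_kt hs, e1, gv]
    change 1 / 2 * vT _ (TG gb G y) m - uT _ (TG gb G y) m + _ = _
    ring
  have e6 : ∑ j, (G y)⁻¹ c j * omL gb G K y ![j] =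
      -∑ j, iv G y c j * gv (up (iv G y) (a2 (ktT G K y))) (TG gb G y) j +
        (1 / 2) * ∑ j, up (iv G y) (a2 (ktT G K y)) c j * vT (iv G y) (TG gb G y) j := by
    refine Eq.trans ?_ (congrArg (fun z => _ + (1 / 2) * z) e2)
    rw [mul_sum, ← sum_neg_distrib, ← sum_add_distrib]
    exact sum_congr rfl fun j _ => by rw [e5]; change iv G y c j * _ = _; ring
  unfold wL
  rw [e6, fl_chr hH hX (TG_sy gb h), e]
  have e4 : ∀ a b : ℝ, a * (sq G y * b) = sq G y * (a * b) := fun a b => by ring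
  simp only [gv_smul, Pi.smul_apply, smul_eq_mul, mul_assoc]
  have e7 : ∑ m, iv G y c m * (sq G y * gv (up (iv G y) (a2 (ktT G K y))) (TG gb G y) m) =
      sq G y * ∑ m, iv G y c m * gv (up (iv G y) (a2 (ktT G K y))) (TG gb G y) m := by
    rw [mul_sum]; exact sum_congr rfl fun _ _ => e4 _ _
  rw [e7, ← mul_sum]
  change _ = sq G y * _
  ring

theorem wF_eq (gb : MetricField n) (hd : (G y).det ≠ 0) (h : ∀ᶠ z in 𝓝 y, Sy2 (G z))
    (hK : Sy2 (K y)) (c : Fin n) : wF (sq G y) (iv G y) (TG gb G y) (K y) c =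
      √(G y).det * ∑ j, (G y)⁻¹ c j * omF gb G K y ![j] := by
  have e : vG (sq G y) (iv G y) (K y) = sq G y • up (iv G y) (a2 (ktT G K y)) :=
    vG_eq_up (sq G y) (K y) (iv_of_det hd)
  have e2 := conT_one h.self_of_nhds (gauT gb G) (ktT G K) c
  simp only [wF, wL_eq gb hd h hK, omF, Pi.add_apply, mul_add, sum_add_distrib]
  congr 1
  change _ = sq G y * ∑ j, iv G y c j * _
  rw [e2, e, mul_sum]
  exact sum_congr rfl fun j _ => mul_assoc _ _ _

/-! ### smoothness -/

section Smooth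

variable (hb : IsRiemannianOn gb U) (hG : IsRiemannianOn G U)

theorem smT_prm {k : ℕ} (σ : Equiv.Perm (Fin k)) {T : Tn n k} (hT : SmT T U) : SmT (prmT σ T) U :=
  fun _ => hT _

theorem smT_otT {u v : Tn n 1} (hu : SmT u U) (hv : SmT v U) : SmT (otT u v) U :=
  fun _ => (hu _).mul (hv _)

include hG

theorem smT_vTT {T : Tn n 3} (hT : SmT T U) : SmT (vTT G T) U := (smT_prm _ hT).trT hG
theorem smT_gvT {T : Tn n 3} (hT : SmT T U) : SmT (gvT G T) U :=
  (hT.trT hG).sub ((smT_vTT hG hT).smul _)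
theorem smT_ktT (hK : SmT (matT K) U) : SmT (ktT G K) U :=
  (SmT.smT (contDiffOn_const.mul ((hK.trT hG) _)) (SmT.met hG)).sub hK

include hb

theorem smT_gauT : SmT (gauT gb G) U := by
  rw [gauT_tens]; exact smT_gvT hG ((SmT.met hG).cov hb)
theorem smT_redT : SmT (redT gb G) U := by
  have h := smT_gauT hb hG
  rw [redT_tens]
  exact ((SmT.ricT hG).sub (((h.cov hb).add (smT_prm _ (h.cov hb))).smul _)).add
    ((smT_otT h h).smul _)
theorem smT_omE : SmT (omE gb G) U :=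
  (smT_gauT hb hG).sub ((smT_vTT hG ((SmT.met hG).cov hb)).smul _)
theorem smT_omL (hK : SmT (matT K) U) : SmT (omL gb G K) U :=
  have hT := (SmT.met hG).cov hb
  ((((smT_ktT hG hK).conT hG hT).smul _).sub ((smT_ktT hG hK).conT hG (smT_prm _ hT))).add
    (((smT_vTT hG hT).conT hG (smT_ktT hG hK)).smul _)
theorem smT_omF (hK : SmT (matT K) U) : SmT (omF gb G K) U :=
  (smT_omL hb hG hK).add ((smT_gauT hb hG).conT hG (smT_ktT hG hK))
theorem sm_lagS : ContDiffOn ℝ ∞ (lagS gb G) U :=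
  have hT := (SmT.met hG).cov hb
  ((((((SmT.ricT hb).trT hG) ![]).sub (contDiffOn_const.mul (hT.nsq hG))).add
    (contDiffOn_const.mul (hT.ip hG (smT_prm _ hT)))).sub
    (contDiffOn_const.mul ((smT_vTT hG hT).ip hG (smT_gauT hb hG)))).congr
    fun _ hy => lagS_tens gb (g_sy_ev hG hy)
theorem sm_fgfS : ContDiffOn ℝ ∞ (fgfS gb G) U :=
  (sm_lagS hb hG).sub (contDiffOn_const.mul ((smT_gauT hb hG).nsq hG))
theorem sm_lagF : ContDiffOn ℝ ∞ (lagF gb G) U := (sm_sqrt_det hG).mul (sm_lagS hb hG)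
theorem sm_fgfF : ContDiffOn ℝ ∞ (fgfF gb G) U :=
  ((sm_sqrt_det hG).mul (sm_fgfS hb hG)).congr fun y _ => fgfF_eq gb G y

/-! ### the identities in divergence form -/

theorem eh_div (hy : y ∈ U) : scalarCurv G y = lagS gb G y + divT G (omE gb G) y ![] := by
  have h := eh_eq hb hG hy
  have h1 : ∀ c, pderiv c (fluxF gb G c) y =
      pderiv c (fun z => √(G z).det * ∑ j, (G z)⁻¹ c j * omE gb G z ![j]) y := fun c =>
    pd_congr_on c hG.isOpen hy fun z hz => fluxF_eq gb (g_sy_ev hG hz) c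
  simp only [h1] at h
  rw [← sqrt_det_mul_divT hG hy ((smT_omE hb hG).dAt hG.isOpen hy), lagF_eq] at h
  have h2 : sq G y ≠ 0 := (Real.sqrt_pos.2 (hG.posDef y hy).det_pos).ne'
  exact mul_left_cancel₀ h2 (h.trans (mul_add _ _ _).symm)

theorem dlag_div (hy : y ∈ U) (hK : SmT (matT K) U) (hKs : ∀ z ∈ U, Sy2 (K z)) :
    dlag (sq G y) (iv G y) (TG gb G y) (ricci gb y) (K y) (TG gb K y) =
      sq G y * (ip G (ktT G K) (ricT G) y + divT G (omL gb G K) y ![]) := by
  have h1 : ∀ c, pderiv c (fun z => wL (sq G z) (iv G z) (TG gb G z) (K z) c) y =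
      pderiv c (fun z => √(G z).det * ∑ j, (G z)⁻¹ c j * omL gb G K z ![j]) y := fun c =>
    pd_congr_on c hG.isOpen hy fun z hz =>
      wL_eq gb (hG.posDef z hz).det_pos.ne' (g_sy_ev hG hz) (hKs z hz) c
  rw [dlag_eq (K := K) hb hG hy (fun a b => hK.dAt hG.isOpen hy ![a, b])
    (mem_of_superset (hG.isOpen.mem_nhds hy) hKs)]
  simp only [h1]
  rw [← sqrt_det_mul_divT hG hy ((smT_omL hb hG hK).dAt hG.isOpen hy), mul_add,
    ← tr2_vG_eq (hG.posDef y hy).det_pos.ne' (g_sy hG hy)]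
  rfl

theorem dfgf_div (hy : y ∈ U) (hK : SmT (matT K) U) (hKs : ∀ z ∈ U, Sy2 (K z)) :
    dfgf (sq G y) (iv G y) (TG gb G y) (ricci gb y) (K y) (TG gb K y) =
      sq G y * (ip G (ktT G K) (redT gb G) y + divT G (omF gb G K) y ![]) := by
  have h1 : ∀ c, pderiv c (fun z => wF (sq G z) (iv G z) (TG gb G z) (K z) c) y =
      pderiv c (fun z => √(G z).det * ∑ j, (G z)⁻¹ c j * omF gb G K z ![j]) y := fun c =>
    pd_congr_on c hG.isOpen hy fun z hz =>
      wF_eq gb (hG.posDef z hz).det_pos.ne' (g_sy_ev hG hz) (hKs z hz) c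
  rw [dfgf_eq (K := K) hb hG hy (fun a b => hK.dAt hG.isOpen hy ![a, b])
    (mem_of_superset (hG.isOpen.mem_nhds hy) hKs)]
  simp only [h1]
  rw [← sqrt_det_mul_divT hG hy ((smT_omF hb hG hK).dAt hG.isOpen hy), mul_add,
    ← tr2_vG_eq (hG.posDef y hy).det_pos.ne' (g_sy hG hy)]
  rfl

end Smooth

/-! ### naturality -/

section Nat

variable {G' gb' K' : MetricField n} {Φ : En n → En n} {V W : Set (En n)}

theorem rel_otT {u v u' v' : Tn n 1} (hu : Rel Φ V u' u) (hv : Rel Φ V v' v) :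
    Rel Φ V (otT u' v') (otT u v) := fun y hy => by
  funext I
  simp only [otT, hu y hy, hv y hy, pullT, AI.evT_two, AI.evT_one, Matrix.cons_val_zero,
    Matrix.cons_val_one, sum_mul, mul_sum]
  rw [sum_comm]
  exact sum_congr rfl fun a _ => sum_congr rfl fun b _ => by ring

variable (p : Pull G' G Φ V W)
include p

theorem rel_vTT {T T' : Tn n 3} (h : Rel Φ V T' T) : Rel Φ V (vTT G' T') (vTT G T) :=
  (h.prmT _).trT p
theorem rel_gvT {T T' : Tn n 3} (h : Rel Φ V T' T) : Rel Φ V (gvT G' T') (gvT G T) :=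
  (h.trT p).sub ((rel_vTT p h).smul _)
theorem trS_pull (hK : Rel Φ V (matT K') (matT K)) (hy : y ∈ V) : trS G' K' y = trS G K (Φ y) :=
  (hK.trT p).val hy
theorem rel_ktT (hK : Rel Φ V (matT K') (matT K)) : Rel Φ V (ktT G' K') (ktT G K) :=
  (Rel.smT (f := fun y => (1 / 2) * trS G K y) (fun _ hy => by rw [trS_pull p hK hy])
    (Rel.matT p)).sub hK
theorem sq_pull (hy : y ∈ V) : sq G' y = sq G (Φ y) * |(fderiv ℝ Φ y).det| := by
  rw [sq, p.det_pull hy, Real.sqrt_mul (p.riem.posDef _ (p.maps y hy)).det_pos.le,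
    Real.sqrt_sq_eq_abs]; rfl
theorem tr2_vG_pull (hK : Rel Φ V (matT K') (matT K)) {X X' : Tn n 2} (hX : Rel Φ V X' X)
    (hy : y ∈ V) : tr2 (vG (sq G' y) (iv G' y) (K' y)) (a2 (X' y)) =
      tr2 (vG (sq G (Φ y)) (iv G (Φ y)) (K (Φ y))) (a2 (X (Φ y))) * |(fderiv ℝ Φ y).det| := by
  rw [tr2_vG_eq (p.riem'.posDef y hy).det_pos.ne' (g_sy p.riem' hy),
    tr2_vG_eq (p.riem.posDef _ (p.maps y hy)).det_pos.ne' (g_sy p.riem (p.maps y hy)),
    (rel_ktT p hK).ip p hX hy, sq_pull p hy]; ring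

variable (pb : Pull gb' gb Φ V W)
include pb

theorem rel_TG : Rel Φ V (cov gb' (matT G')) (cov gb (matT G)) :=
  (Rel.matT p).cov pb (SmT.met p.riem)
theorem rel_gauT : Rel Φ V (gauT gb' G') (gauT gb G) := by
  rw [gauT_tens, gauT_tens]; exact rel_gvT p (rel_TG p pb)
theorem rel_redT : Rel Φ V (redT gb' G') (redT gb G) := by
  have h := rel_gauT p pb
  have h1 := h.cov pb (smT_gauT pb.riem p.riem)
  rw [redT_tens, redT_tens]
  exact ((Rel.ricT p).sub ((h1.add (h1.prmT _)).smul _)).add ((rel_otT h h).smul _)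
theorem rel_omE : Rel Φ V (omE gb' G') (omE gb G) :=
  (rel_gauT p pb).sub ((rel_vTT p (rel_TG p pb)).smul _)
theorem rel_omL (hK : Rel Φ V (matT K') (matT K)) : Rel Φ V (omL gb' G' K') (omL gb G K) :=
  have hT := rel_TG p pb
  ((((rel_ktT p hK).conT p hT).smul _).sub ((rel_ktT p hK).conT p (hT.prmT _))).add
    (((rel_vTT p hT).conT p (rel_ktT p hK)).smul _)
theorem rel_omF (hK : Rel Φ V (matT K') (matT K)) : Rel Φ V (omF gb' G' K') (omF gb G K) :=
  (rel_omL p pb hK).add ((rel_gauT p pb).conT p (rel_ktT p hK))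
theorem lagS_pull (hy : y ∈ V) : lagS gb' G' y = lagS gb G (Φ y) := by
  have hT := rel_TG p pb
  rw [lagS_tens gb' (g_sy_ev p.riem' hy), lagS_tens gb (g_sy_ev p.riem (p.maps y hy)),
    ((Rel.ricT pb).trT p).val hy, nsq, nsq, hT.ip p hT hy, hT.ip p (hT.prmT _) hy,
    (rel_vTT p hT).ip p (rel_gauT p pb) hy]
theorem fgfS_pull (hy : y ∈ V) : fgfS gb' G' y = fgfS gb G (Φ y) := by
  rw [fgfS, fgfS, lagS_pull p pb hy, nsq, nsq, (rel_gauT p pb).ip p (rel_gauT p pb) hy]
theorem lagF_pull (hy : y ∈ V) : lagF gb' G' y = lagF gb G (Φ y) * |(fderiv ℝ Φ y).det| := by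
  rw [lagF_eq, lagF_eq, lagS_pull p pb hy, sq_pull p hy]; ring
theorem fgfF_pull (hy : y ∈ V) : fgfF gb' G' y = fgfF gb G (Φ y) * |(fderiv ℝ Φ y).det| := by
  rw [fgfF_eq, fgfF_eq, fgfS_pull p pb hy, sq_pull p hy]; ring

end Nat

end Crest.Agent.N207.Lg

end
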