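import Crest.Agent.N207.Tens

/-!
# Row 207 (helper54): the gauge-fixed Einstein-Hilbert Lagrangian, definitions

JET LEVEL (any field `𝕜`, any finite index type): `s = √det g`, `H = g⁻¹`, `T c a b = ∇̄_c g_ab`,
`TT c d a b = ∇̄_c ∇̄_d g_ab` (`∇̄` = background connection; flat background: partial derivatives),
`ρ = Ric` of the background, variation `k` of `g` and `τ = ∇̄ k`.

* `lag s H T ρ`: first order Lagrangian, `√g R = lag + ∂_c flux^c`;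
* `fgf = lag - gau`, `gau = √g |B|² / 2`, `B = gv H T` the (lowered) De Turck vector;
* `vG s H k = δ(√g g⁻¹)`; first variation `δ fgf = vG^{ij} 𝓡_ij + ∂_c wF^c`,
  `𝓡 = Ric - sym ∇̄ B + B ⊗ B / 2 = ρ + redJ H T TT`.

FUNCTION LEVEL (`gb` background metric, `G` metric, coordinates): `TG`, `TTG`, `gauT`, `redT`,
`lagF`, `fgfF`, `fluxF`.
-/

set_option autoImplicit false

open Crest.GeometryTopology.CoordMetric Crest.GeometryTopology.ChartCurvature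
  Crest.GeometryTopology.MetricFamily

noncomputable section

namespace Crest.Agent.N207.Lg

/-- arrays with two indices -/
abbrev M2 (ι 𝕜 : Type*) : Type _ := ι → ι → 𝕜
/-- arrays with three indices -/
abbrev M3 (ι 𝕜 : Type*) : Type _ := ι → ι → ι → 𝕜
/-- arrays with four indices -/
abbrev M4 (ι 𝕜 : Type*) : Type _ := ι → ι → ι → ι → 𝕜

section Jet

variable {ι 𝕜 : Type*} [Fintype ι] [Field 𝕜]

/-- `Γ_{m,ij}` of a 1-jet `p c a b = ∂_c g_ab` -/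
def low (p : M3 ι 𝕜) : M3 ι 𝕜 := fun m i j => (1 / 2) * (p i j m + p j i m - p m i j)

/-- `Γ^k_ij` -/
def chr (H : M2 ι 𝕜) (p : M3 ι 𝕜) : M3 ι 𝕜 := fun k i j => ∑ l, H k l * low p l i j

/-- covariant derivative of `g` (1-jet `p`) for the connection `β m c a = β^m_{ca}` -/
def bar (g : M2 ι 𝕜) (p β : M3 ι 𝕜) : M3 ι 𝕜 := fun c a b =>
  p c a b - ∑ m, β m c a * g m b - ∑ m, β m c b * g a m

/-- `H^{ab} k_ab` -/
def tr2 (H k : M2 ι 𝕜) : 𝕜 := ∑ a, ∑ b, H a b * k a b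

/-- `H k H` -/
def up (H k : M2 ι 𝕜) : M2 ι 𝕜 := fun i j => ∑ a, ∑ b, H i a * k a b * H b j

/-- `H^{ca} T_{cab}` -/
def uT (H : M2 ι 𝕜) (T : M3 ι 𝕜) : ι → 𝕜 := fun b => ∑ c, ∑ a, H c a * T c a b

/-- `H^{ab} T_{cab}` -/
def vT (H : M2 ι 𝕜) (T : M3 ι 𝕜) : ι → 𝕜 := fun c => tr2 H (T c)

/-- the lowered gauge vector `B_j = g_{jk} H^{ab} C^k_{ab}`, `C = chr H T` -/
def gv (H : M2 ι 𝕜) (T : M3 ι 𝕜) : ι → 𝕜 := fun j => uT H T j - (1 / 2) * vT H T j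

/-- `C^k_{jl} D^l_{ki} - C^k_{kl} D^l_{ij}` -/
def cc (C D : M3 ι 𝕜) : M2 ι 𝕜 := fun i j =>
  ∑ k, ∑ l, C k j l * D l k i - ∑ k, ∑ l, C k k l * D l i j

/-- the `ΓΓ` form -/
def ell (H : M2 ι 𝕜) (T : M3 ι 𝕜) : 𝕜 := tr2 H (cc (chr H T) (chr H T))

/-- first order Einstein-Hilbert Lagrangian -/
def lag (s : 𝕜) (H : M2 ι 𝕜) (T : M3 ι 𝕜) (ρ : M2 ι 𝕜) : 𝕜 := s * (tr2 H ρ + ell H T)

/-- `H^{ij} u_i v_j` -/
def ip1 (H : M2 ι 𝕜) (u v : ι → 𝕜) : 𝕜 := ∑ i, ∑ j, H i j * (u i * v j)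

/-- gauge term `√g |B|² / 2` -/
def gau (s : 𝕜) (H : M2 ι 𝕜) (T : M3 ι 𝕜) : 𝕜 := (1 / 2) * s * ip1 H (gv H T) (gv H T)

/-- the gauge-fixed Lagrangian (NOTE the sign: `lag - gau`) -/
def fgf (s : 𝕜) (H : M2 ι 𝕜) (T : M3 ι 𝕜) (ρ : M2 ι 𝕜) : 𝕜 := lag s H T ρ - gau s H T

/-- `δ(√g g^{ij})` in the direction `k` -/
def vG (s : 𝕜) (H k : M2 ι 𝕜) : M2 ι 𝕜 := fun i j => s * ((1 / 2) * tr2 H k * H i j - up H k i j)

/-- `X^{ij} C^c_{ij} - X^{ic} C^j_{ji}` -/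
def fl (X : M2 ι 𝕜) (C : M3 ι 𝕜) : ι → 𝕜 := fun c =>
  ∑ i, ∑ j, X i j * C c i j - ∑ i, ∑ j, X i c * C j j i

/-- `√g R = lag + ∂_c flux^c` -/
def flux (s : 𝕜) (H : M2 ι 𝕜) (T : M3 ι 𝕜) : ι → 𝕜 := fun c => s * fl H (chr H T) c

/-- boundary term of the first variation of `lag` -/
def wL (s : 𝕜) (H : M2 ι 𝕜) (T : M3 ι 𝕜) (k : M2 ι 𝕜) : ι → 𝕜 := fun c =>
  -fl (vG s H k) (chr H T) c

/-- boundary term of the first variation of `fgf` -/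
def wF (s : 𝕜) (H : M2 ι 𝕜) (T : M3 ι 𝕜) (k : M2 ι 𝕜) : ι → 𝕜 := fun c =>
  wL s H T k c + ∑ j, vG s H k c j * gv H T j

/-- variation of `chr H T` when `g` moves by `k` and `T` by `τ` -/
def dchr (H : M2 ι 𝕜) (T : M3 ι 𝕜) (k : M2 ι 𝕜) (τ : M3 ι 𝕜) : M3 ι 𝕜 := fun a i j =>
  chr H τ a i j - chr (up H k) T a i j

/-- variation of `gv H T` -/
def dgv (H : M2 ι 𝕜) (T : M3 ι 𝕜) (k : M2 ι 𝕜) (τ : M3 ι 𝕜) : ι → 𝕜 := fun j =>
  gv H τ j - gv (up H k) T j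

/-- variation of `lag` -/
def dlag (s : 𝕜) (H : M2 ι 𝕜) (T : M3 ι 𝕜) (ρ k : M2 ι 𝕜) (τ : M3 ι 𝕜) : 𝕜 :=
  tr2 (vG s H k) ρ + tr2 (vG s H k) (cc (chr H T) (chr H T)) +
    s * (tr2 H (cc (dchr H T k τ) (chr H T)) + tr2 H (cc (chr H T) (dchr H T k τ)))

/-- variation of `gau` -/
def dgau (s : 𝕜) (H : M2 ι 𝕜) (T : M3 ι 𝕜) (k : M2 ι 𝕜) (τ : M3 ι 𝕜) : 𝕜 :=
  (1 / 2) * ip1 (vG s H k) (gv H T) (gv H T) +
    (1 / 2) * s * (ip1 H (dgv H T k τ) (gv H T) + ip1 H (gv H T) (dgv H T k τ))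

/-- variation of `fgf` -/
def dfgf (s : 𝕜) (H : M2 ι 𝕜) (T : M3 ι 𝕜) (ρ k : M2 ι 𝕜) (τ : M3 ι 𝕜) : 𝕜 :=
  dlag s H T ρ k τ - dgau s H T k τ

/-- Ricci tensor of a connection `Γ` with derivative `dΓ c k i j = ∂_c Γ^k_ij` -/
def ricC (Γ : M3 ι 𝕜) (dΓ : M4 ι 𝕜) : M2 ι 𝕜 := fun i j =>
  ∑ k, dΓ k k i j - ∑ k, dΓ j k k i - cc Γ Γ i j

/-- `Ric(g) - Ric(background)` -/
def ricJ (H : M2 ι 𝕜) (T : M3 ι 𝕜) (TT : M4 ι 𝕜) : M2 ι 𝕜 :=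
  ricC (chr H T) fun c => dchr H T (T c) (TT c)

/-- reduced Ricci operator minus `Ric(background)` -/
def redJ (H : M2 ι 𝕜) (T : M3 ι 𝕜) (TT : M4 ι 𝕜) : M2 ι 𝕜 := fun i j =>
  ricJ H T TT i j - (1 / 2) * (dgv H T (T i) (TT i) j + dgv H T (T j) (TT j) i) +
    (1 / 2) * (gv H T i * gv H T j)

/-- the first order part of `redJ`: quadratic in `T`, quadratic in `H` -/
def qd (H : M2 ι 𝕜) (T : M3 ι 𝕜) : M2 ι 𝕜 := redJ H T 0

/-- `H^{ab} TT_{ab ij}` -/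
def lapJ (H : M2 ι 𝕜) (TT : M4 ι 𝕜) : M2 ι 𝕜 := fun i j => ∑ a, ∑ b, H a b * TT a b i j

end Jet

section Fun

variable {n : ℕ}

/-- array of a 2-tensor -/
def a2 (A : Arr n 2) : M2 (Fin n) ℝ := fun a b => A ![a, b]
/-- array of a 3-tensor -/
def a3 (A : Arr n 3) : M3 (Fin n) ℝ := fun c a b => A ![c, a, b]
/-- array of a 4-tensor -/
def a4 (A : Arr n 4) : M4 (Fin n) ℝ := fun c d a b => A ![c, d, a, b]

/-- `√det G` -/
def sq (G : MetricField n) (y : En n) : ℝ := Real.sqrt (G y).det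
/-- `G⁻¹` -/
def iv (G : MetricField n) (y : En n) : M2 (Fin n) ℝ := fun a b => (G y)⁻¹ a b
/-- `∇̄ K` for a matrix field `K`, background metric `gb` -/
def TG (gb K : MetricField n) (y : En n) : M3 (Fin n) ℝ := a3 (cov gb (matT K) y)
/-- `∇̄ ∇̄ K` -/
def TTG (gb K : MetricField n) (y : En n) : M4 (Fin n) ℝ := a4 (cov gb (cov gb (matT K)) y)

/-- the De Turck 1-form `B_j = G_{jk} G^{ab} (Γ(G) - Γ(gb))^k_{ab}` -/
def gauT (gb G : MetricField n) : Tn n 1 := fun y I => gv (iv G y) (TG gb G y) (I 0)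

/-- the reduced Ricci tensor `𝓡 = Ric(G) - sym ∇̄ B + B ⊗ B / 2` -/
def redT (gb G : MetricField n) : Tn n 2 := fun y I =>
  ricci G y (I 0) (I 1) -
      (1 / 2) * (cov gb (gauT gb G) y ![I 0, I 1] + cov gb (gauT gb G) y ![I 1, I 0]) +
    (1 / 2) * (gauT gb G y ![I 0] * gauT gb G y ![I 1])

/-- the first order Einstein-Hilbert density (relative to the background `gb`) -/
def lagF (gb G : MetricField n) (y : En n) : ℝ := lag (sq G y) (iv G y) (TG gb G y) (ricci gb y)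
/-- the gauge-fixed density -/
def fgfF (gb G : MetricField n) (y : En n) : ℝ := fgf (sq G y) (iv G y) (TG gb G y) (ricci gb y)
/-- the flux `√G (G^{ij} C^c_{ij} - G^{ic} C^j_{ji})` -/
def fluxF (gb G : MetricField n) (c : Fin n) (y : En n) : ℝ := flux (sq G y) (iv G y) (TG gb G y) c

end Fun

end Crest.Agent.N207.Lg

end
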