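import Crest.Agent.N207.Lg.Fun1

/-!
# Row 207 (helper54): the identities for `C²` fields at one point; explicit 2-jet formulas
-/

set_option autoImplicit false
set_option linter.unusedSectionVars false

open Finset Filter Set
open scoped Topology ContDiff
open Crest.GeometryTopology.CoordMetric Crest.GeometryTopology.ChartCurvature
  Crest.GeometryTopology.MetricFamily

noncomputable section

namespace Crest.Agent.N207.Lg

section Inv

variable {ι 𝕜 P : Type*} [Fintype ι] [DecidableEq ι] [NontriviallyNormedField 𝕜]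
  [NormedAddCommGroup P] [NormedSpace 𝕜 P] {x : P} {m : WithTop ℕ∞} {A : P → Matrix ι ι 𝕜}

theorem cA_det (hA : ∀ i j, ContDiffAt 𝕜 m (fun z => A z i j) x) :
    ContDiffAt 𝕜 m (fun z => (A z).det) x := by
  simp only [Matrix.det_apply']
  exact .sum fun σ _ => contDiffAt_const.mul (contDiffAt_prod fun i _ => hA _ _)

theorem cA_inv [CompleteSpace 𝕜] (hA : ∀ i j, ContDiffAt 𝕜 m (fun z => A z i j) x)
    (hd : (A x).det ≠ 0) (i j : ι) : ContDiffAt 𝕜 m (fun z => (A z)⁻¹ i j) x := by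
  have e : (fun r => (A r)⁻¹ i j) = fun r => ((A r).det)⁻¹ *
      ((A r).updateRow j (Pi.single i 1)).det := by
    funext r
    simp only [Matrix.inv_def, Matrix.smul_apply, smul_eq_mul, Ring.inverse_eq_inv',
      Matrix.adjugate_apply]
  rw [e]
  refine ((cA_det hA).inv hd).mul (cA_det fun a b => ?_)
  by_cases ha : a = j
  · subst ha; simpa using contDiffAt_const
  · simpa [Matrix.updateRow_ne ha] using hA a b

omit [NormedAddCommGroup P] [NormedSpace 𝕜 P] in
theorem iv_of_det {B : Matrix ι ι 𝕜} (hd : B.det ≠ 0) : Iv B fun i j => B⁻¹ i j := by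
  have h1 := Matrix.nonsing_inv_mul B (isUnit_iff_ne_zero.2 hd)
  have h2 := Matrix.mul_nonsing_inv B (isUnit_iff_ne_zero.2 hd)
  refine ⟨fun v i => ?_, fun v i => ?_⟩
  · have := congrFun (Matrix.mulVec_mulVec v B⁻¹ B) i
    rw [h1, Matrix.one_mulVec] at this
    exact this
  · have := congrFun (Matrix.mulVec_mulVec v B B⁻¹) i
    rw [h2, Matrix.one_mulVec] at this
    exact this

omit [NormedAddCommGroup P] [NormedSpace 𝕜 P] in
theorem sy_inv {B : Matrix ι ι 𝕜} (hB : Sy2 B) : Sy2 fun i j => B⁻¹ i j := fun i j => by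
  have h : B.transpose = B := hB.tp
  have := congrFun (congrFun (Matrix.transpose_nonsing_inv B) j) i
  rw [h] at this
  exact this

end Inv

section Raw

variable {ι 𝕜 : Type*} [Fintype ι] [Field 𝕜]

/-- derivative of the Christoffel symbols in terms of the 2-jet `(p, q)` -/
def dG2 (H : M2 ι 𝕜) (p : M3 ι 𝕜) (q : M4 ι 𝕜) : M4 ι 𝕜 := fun c => dchr H p (p c) (q c)

/-- the reduced Ricci tensor in terms of `g, g⁻¹, ∂g, ∂∂g` and the background `β, ∂β` -/
def redR (g H : M2 ι 𝕜) (p : M3 ι 𝕜) (q : M4 ι 𝕜) (β : M3 ι 𝕜) (dβ : M4 ι 𝕜) : M2 ι 𝕜 :=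
  ricC β dβ + redJ H (bar g p β) (bar3 (bar g p β) (dbar g p q β dβ) β)

/-- the gauge-fixed Lagrangian in terms of the raw jets -/
def fgfR (s : 𝕜) (g H : M2 ι 𝕜) (p β : M3 ι 𝕜) (dβ : M4 ι 𝕜) : 𝕜 :=
  fgf s H (bar g p β) (ricC β dβ)

/-- the Lagrangian in terms of the raw jets -/
def lagR (s : 𝕜) (g H : M2 ι 𝕜) (p β : M3 ι 𝕜) (dβ : M4 ι 𝕜) : 𝕜 :=
  lag s H (bar g p β) (ricC β dβ)

end Raw

variable {n : ℕ} {G gb K : MetricField n} {U : Set (En n)} {y : En n}

/-- `C²`, symmetric and nondegenerate near `y` -/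
structure C2 (G : MetricField n) (y : En n) : Prop where
  c2 : ∀ a b, ContDiffAt ℝ 2 (fun z => G z a b) y
  sy : ∀ᶠ z in 𝓝 y, Sy2 (G z)
  pos : 0 < (G y).det

theorem C2.of_riem (hG : IsRiemannianOn G U) (hy : y ∈ U) : C2 G y :=
  ⟨fun a b => c2At (hG.contDiffOn a b) hG.isOpen hy, g_sy_ev hG hy, (hG.posDef y hy).det_pos⟩

namespace C2

theorem ev (h : C2 G y) : ∀ᶠ z in 𝓝 y, C2 G z := by
  have h1 : ∀ᶠ z in 𝓝 y, ∀ a b, ContDiffAt ℝ 2 (fun z => G z a b) z :=
    eventually_all.2 fun a => eventually_all.2 fun b => (h.c2 a b).eventually (by simp)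
  have h2 : ∀ᶠ z in 𝓝 y, 0 < (G z).det :=
    (cA_det h.c2).continuousAt.eventually (lt_mem_nhds h.pos)
  filter_upwards [h1, h2, h.sy.eventually_nhds] with z a b c using ⟨a, c, b⟩

theorem g_sy (h : C2 G y) : Sy2 (G y) := h.sy.self_of_nhds
theorem iv_sy (h : C2 G y) : Sy2 (iv G y) := sy_inv h.g_sy
theorem iv_inv (h : C2 G y) : Iv (G y) (iv G y) := iv_of_det h.pos.ne'
theorem jet_sy (h : C2 G y) : Sy3 (jet G y) := Lg.jet_sy h.sy
theorem gam_sy (h : C2 G y) : Sy3 (christoffel G y) := by rw [chr_eq]; exact chr_sy _ h.jet_sy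
theorem dGam_sy (h : C2 G y) (c : Fin n) : Sy3 (dGam G y c) := fun k i j =>
  pd_congr c (h.ev.mono fun _ hz => hz.gam_sy k i j)
theorem d (h : C2 G y) (a b : Fin n) : DifferentiableAt ℝ (fun z => G z a b) y :=
  (h.c2 a b).differentiableAt (by norm_num)

theorem c_g (h : C2 G y) : ContDiffAt (F := M2 (Fin n) ℝ) ℝ 2 G y :=
  contDiffAt_pi.2 fun a => contDiffAt_pi.2 fun b => h.c2 a b
theorem c_iv (h : C2 G y) : ContDiffAt ℝ 2 (iv G) y :=
  contDiffAt_pi.2 fun a => contDiffAt_pi.2 fun b => cA_inv h.c2 h.pos.ne' a b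
theorem c_sq (h : C2 G y) : ContDiffAt ℝ 2 (sq G) y := (cA_det h.c2).sqrt h.pos.ne'
theorem c_jet (h : C2 G y) : ContDiffAt ℝ 1 (jet G) y :=
  contDiffAt_pi.2 fun c => contDiffAt_pi.2 fun a => contDiffAt_pi.2 fun b =>
    R247.Bo84.contDiffAt_pderiv (m := 1) (h.c2 a b) (by norm_num) c
theorem c_gam (h : C2 G y) : ContDiffAt ℝ 1 (christoffel G) y := by
  have := cA_chr (h.c_iv.of_le one_le_two) h.c_jet
  rwa [show (fun z => chr (iv G z) (jet G z)) = christoffel G from
    funext fun z => (chr_eq G z).symm] at this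
theorem c_TG (hb : C2 gb y) (h : C2 G y) : ContDiffAt ℝ 1 (TG gb G) y := by
  have := cA_bar (h.c_g.of_le one_le_two) h.c_jet hb.c_gam
  rwa [show (fun z => bar (G z) (jet G z) (christoffel gb z)) = TG gb G from
    funext fun z => (TG_eq gb G z).symm] at this

end C2

theorem dA_ap3 {F : En n → M3 (Fin n) ℝ} (h : DifferentiableAt ℝ F y) (c i j : Fin n) :
    DifferentiableAt ℝ (fun z => F z c i j) y :=
  differentiableAt_pi.1 (differentiableAt_pi.1 (differentiableAt_pi.1 h c) i) j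

namespace C2

theorem d_iv (h : C2 G y) : DifferentiableAt ℝ (iv G) y := h.c_iv.differentiableAt (by norm_num)
theorem d_sq (h : C2 G y) : DifferentiableAt ℝ (sq G) y := h.c_sq.differentiableAt (by norm_num)
theorem d_jet (h : C2 G y) : DifferentiableAt ℝ (jet G) y := h.c_jet.differentiableAt (by norm_num)
theorem d_gam (h : C2 G y) : DifferentiableAt ℝ (christoffel G) y :=
  h.c_gam.differentiableAt (by norm_num)
theorem d_TG (hb : C2 gb y) (h : C2 G y) : DifferentiableAt ℝ (TG gb G) y :=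
  (hb.c_TG h).differentiableAt (by norm_num)

theorem ricci_eq_ricC (h : C2 G y) : ricci G y = ricC (christoffel G y) (dGam G y) := by
  funext i j
  simp only [ricci, ricC, cc, dGam]
  rw [pd_sum j _ fun k _ => dA_ap3 h.d_gam k k i]; ring

theorem chr_TG (hb : C2 gb y) (h : C2 G y) :
    chr (iv G y) (TG gb G y) = christoffel G y - christoffel gb y := by
  rw [TG_eq, chr_bar _ h.iv_inv h.g_sy hb.gam_sy, ← chr_eq]

theorem ln_iv (h : C2 G y) (c : Fin n) :
    HD2 univ 0 (fun r => iv G (ln y c r)) (-up (iv G (ln y c 0)) (jet G y c)) :=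
  hd_inv (ln_mat h.d c) (by rw [ln_zero]; exact h.pos.ne')

theorem ln_sq (h : C2 G y) (c : Fin n) : HasDerivWithinAt (fun r => sq G (ln y c r))
    ((1 / 2) * sq G (ln y c 0) * tr2 (iv G (ln y c 0)) (jet G y c)) univ 0 :=
  hd_sqrt_det (ln_mat h.d c) (h.jet_sy.ap c) (by rw [ln_zero]; exact h.pos)

theorem ln_gam (h : C2 G y) (c : Fin n) :
    HD3 univ 0 (fun r => christoffel G (ln y c r)) (dGam G y c) := fun k i j =>
  pd_line (dA_ap3 h.d_gam k i j) c

/-- `∂Γ` in terms of the 2-jet -/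
theorem dGam_eq (h : C2 G y) : dGam G y = dG2 (iv G y) (jet G y) (jet2 G y) := by
  funext c k i j
  have h1 : HD3 univ 0 (fun r => jet G (ln y c r)) (jet2 G y c) := fun d a b =>
    pd_line (dA_ap3 h.d_jet d a b) c
  have h2 := hd_dchr (h.ln_iv c) h1 k i j
  simp only [ln_zero, ← chr_eq] at h2
  exact pd_eq (dA_ap3 h.d_gam k i j) h2

theorem pd_TG (hb : C2 gb y) (hK : ∀ a b, ContDiffAt ℝ 2 (fun z => K z a b) y) :
    (fun c d a b => pderiv c (fun z => TG gb K z d a b) y) =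
      dbar (K y) (jet K y) (jet2 K y) (christoffel gb y) (dGam gb y) := by
  funext c d a b
  have h1 : ∀ a b, DifferentiableAt ℝ (fun z => K z a b) y := fun a b =>
    (hK a b).differentiableAt (by norm_num)
  have h2 : ∀ d a b, DifferentiableAt ℝ (fun z => jet K z d a b) y := fun d a b =>
    (R247.Bo84.contDiffAt_pderiv (m := 1) (hK a b) (by norm_num) d).differentiableAt (by norm_num)
  have h3 := dA_ap3 hb.d_gam
  simp only [TG_eq, bar, dbar]
  rw [pd_sub c ((h2 d a b).fun_sub (.fun_sum fun m _ => (h3 m d a).fun_mul (h1 m b)))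
    (.fun_sum fun m _ => (h3 m d b).fun_mul (h1 a m)),
    pd_sub c (h2 d a b) (.fun_sum fun m _ => (h3 m d a).fun_mul (h1 m b)),
    pd_sum c _ fun m _ => (h3 m d a).fun_mul (h1 m b),
    pd_sum c _ fun m _ => (h3 m d b).fun_mul (h1 a m)]
  simp only [pd_mul c (h3 _ _ _) (h1 _ _)]
  rfl

theorem TTG_eq (hb : C2 gb y) (hK : ∀ a b, ContDiffAt ℝ 2 (fun z => K z a b) y) :
    TTG gb K y = bar3 (bar (K y) (jet K y) (christoffel gb y))
      (dbar (K y) (jet K y) (jet2 K y) (christoffel gb y) (dGam gb y)) (christoffel gb y) := by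
  rw [Lg.TTG_eq, hb.pd_TG hK, TG_eq]

theorem ln_TG (hb : C2 gb y) (h : C2 G y) (c : Fin n) :
    HD3 univ 0 (fun r => TG gb G (ln y c r)) fun d a b => pderiv c (fun z => TG gb G z d a b) y :=
  fun d a b => pd_line (dA_ap3 (hb.d_TG h) d a b) c

theorem ln_chr (hb : C2 gb y) (h : C2 G y) (c : Fin n) :
    HD3 univ 0 (fun r => chr (iv G (ln y c r)) (TG gb G (ln y c r)))
      (dGam G y c - dGam gb y c) := fun k i j => by
  have hc : Tendsto (ln y c) (𝓝 0) (𝓝 y) := by
    have : ContinuousAt (ln y c) 0 := by unfold ln; fun_prop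
    simpa only [ContinuousAt, ln_zero] using this
  have hev := hc.eventually (hb.ev.and h.ev)
  refine ((h.ln_gam c k i j).fun_sub (hb.ln_gam c k i j)).congr_of_eventuallyEq
    (mem_nhdsWithin_of_mem_nhds (hev.mono fun r hr => ?_)) ?_
  · simp only [hr.1.chr_TG hr.2, Pi.sub_apply]
  · simp only [ln_zero, hb.chr_TG h, Pi.sub_apply]

theorem ricci_eq (hb : C2 gb y) (h : C2 G y) :
    ricci G y = ricci gb y + ricJ (iv G y) (TG gb G y) (TTG gb G y) := by
  have hd : dGam G y = (fun c => dchr (iv G y) (TG gb G y) (jet G y c)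
      fun d a b => pderiv c (fun z => TG gb G z d a b) y) + dGam gb y := by
    funext c k i j
    have h1 := hd_dchr (h.ln_iv c) (hb.ln_TG h c) k i j
    have h2 := hb.ln_chr h c k i j
    have := (h1.hasDerivAt univ_mem).unique (h2.hasDerivAt univ_mem)
    simp only [ln_zero, Pi.sub_apply] at this
    simp only [Pi.add_apply, this]; ring
  have hc : christoffel G y = chr (iv G y) (TG gb G y) + christoffel gb y := by
    rw [hb.chr_TG h]; abel
  rw [h.ricci_eq_ricC, hb.ricci_eq_ricC, hd, hc,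
    ricC_add _ _ hb.gam_sy (chr_sy _ (TG_sy gb h.sy)),
    covC_dchr (jet G y) _ _ (fun c d a b => pderiv c (fun z => TG gb G z d a b) y)
      h.iv_inv h.g_sy h.iv_sy, ← TG_eq gb G y, ← Lg.TTG_eq gb G y]
  rfl

theorem cov_gauT (hb : C2 gb y) (h : C2 G y) (c j : Fin n) :
    cov gb (gauT gb G) y ![c, j] = dgv (iv G y) (TG gb G y) (TG gb G y c) (TTG gb G y c) j := by
  have h0 := hd_dgv (h.ln_iv c) (hb.ln_TG h c) j
  simp only [ln_zero] at h0
  have h3 := dA_gv h.d_iv (hb.d_TG h)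
  have h' : pderiv c (fun z => gv (iv G z) (TG gb G z) j) y = _ := pd_eq (dA_ap h3 j) h0
  have h2 := cov_dgv (TG gb G y) (christoffel gb y)
    (fun c d a b => pderiv c (fun z => TG gb G z d a b) y) h.iv_inv h.g_sy h.iv_sy h.jet_sy c j
  rw [← TG_eq gb G y, ← Lg.TTG_eq gb G y] at h2
  rw [← h2, cov_one, ← h']
  rfl

theorem redT_eq_redJ (hb : C2 gb y) (h : C2 G y) :
    a2 (redT gb G y) = ricci gb y + redJ (iv G y) (TG gb G y) (TTG gb G y) := by
  funext i j
  simp only [a2, redT, Matrix.cons_val_zero, Matrix.cons_val_one, hb.cov_gauT h,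
    hb.ricci_eq h, Pi.add_apply, redJ, gauT]
  ring

theorem redT_eq (hb : C2 gb y) (h : C2 G y) (i j : Fin n) :
    redT gb G y ![i, j] = -(1 / 2) * lapJ (iv G y) (TTG gb G y) i j +
      qd (iv G y) (TG gb G y) i j - cvJ (G y) (iv G y) (riemann gb y) i j := by
  have hT := TTG_sy gb h.sy
  have h0 := congrFun (congrFun (hb.redT_eq_redJ h) i) j
  rw [hb.TTG_eq h.c2] at hT
  have h1 := red_jet h.iv_inv h.g_sy h.iv_sy (jet2_comm h.c2) hb.gam_sy hb.dGam_sy hT i j
  rw [← hb.TTG_eq h.c2, ← TG_eq gb G y, ← hb.ricci_eq_ricC, ← riemann_eq gb y] at h1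
  rw [← h1]; exact h0

/-- `redT` as an explicit polynomial in the 2-jets of `G` and `gb` (and the inverses) -/
theorem redT_raw (hb : C2 gb y) (h : C2 G y) :
    a2 (redT gb G y) = redR (G y) (iv G y) (jet G y) (jet2 G y) (chr (iv gb y) (jet gb y))
      (dG2 (iv gb y) (jet gb y) (jet2 gb y)) := by
  rw [hb.redT_eq_redJ h, hb.TTG_eq h.c2, TG_eq, hb.ricci_eq_ricC, hb.dGam_eq, chr_eq gb y]; rfl

theorem fgfF_raw (hb : C2 gb y) (G : MetricField n) :
    fgfF gb G y = fgfR (sq G y) (G y) (iv G y) (jet G y) (chr (iv gb y) (jet gb y))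
      (dG2 (iv gb y) (jet gb y) (jet2 gb y)) := by
  rw [fgfF, TG_eq, hb.ricci_eq_ricC, hb.dGam_eq, chr_eq gb y]; rfl

theorem lagF_raw (hb : C2 gb y) (G : MetricField n) :
    lagF gb G y = lagR (sq G y) (G y) (iv G y) (jet G y) (chr (iv gb y) (jet gb y))
      (dG2 (iv gb y) (jet gb y) (jet2 gb y)) := by
  rw [lagF, TG_eq, hb.ricci_eq_ricC, hb.dGam_eq, chr_eq gb y]; rfl

theorem ricci_raw (h : C2 G y) :
    ricci G y = ricC (chr (iv G y) (jet G y)) (dG2 (iv G y) (jet G y) (jet2 G y)) := by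
  rw [h.ricci_eq_ricC, h.dGam_eq, chr_eq G y]

theorem riemann_raw (h : C2 G y) :
    riemann G y = rie (chr (iv G y) (jet G y)) (dG2 (iv G y) (jet G y) (jet2 G y)) := by
  rw [riemann_eq, h.dGam_eq, chr_eq G y]

end C2

end Crest.Agent.N207.Lg

end
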