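import Crest.Agent.N207.Lg.Sm
import Crest.Agent.N207.A.Co3

/-!
# Row 207 (helper54): the Lagrangian identities for metric fields in coordinates

`eh_eq` (`√G R = lagF + div fluxF`), `dlag_eq`, `dfgf_eq` (first variation), `redT_eq`
(scalar principal part), `ricci_eq`.
-/

set_option autoImplicit false
set_option linter.unusedSectionVars false

open Finset Filter Set
open scoped Topology ContDiff
open Crest.GeometryTopology.CoordMetric Crest.GeometryTopology.ChartCurvature
  Crest.GeometryTopology.MetricFamily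

noncomputable section

namespace Crest.Agent.N207.Lg

variable {n : ℕ} {G gb K : MetricField n} {U : Set (En n)} {y : En n}

/-- first partial derivatives -/
def jet (K : MetricField n) (y : En n) : M3 (Fin n) ℝ := fun c a b => pderiv c (fun z => K z a b) y
/-- second partial derivatives -/
def jet2 (K : MetricField n) (y : En n) : M4 (Fin n) ℝ := fun c d a b =>
  pderiv c (fun z => jet K z d a b) y
/-- partial derivatives of the Christoffel symbols -/
def dGam (G : MetricField n) (y : En n) : M4 (Fin n) ℝ := fun c k i j =>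
  pderiv c (fun z => christoffel G z k i j) y

/-- coordinate line -/
def ln (y : En n) (c : Fin n) (r : ℝ) : En n := y + r • EuclideanSpace.single c 1

theorem ln_zero (y : En n) (c : Fin n) : ln y c 0 = y := by simp [ln]

theorem pd_line {f : En n → ℝ} (hf : DifferentiableAt ℝ f y) (c : Fin n) :
    HasDerivWithinAt (fun r => f (ln y c r)) (pderiv c f y) univ 0 := by
  have h1 : HasDerivAt (ln y c) (EuclideanSpace.single c 1) 0 := by
    have := ((hasDerivAt_id (0 : ℝ)).smul_const (EuclideanSpace.single c (1 : ℝ))).const_add y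
    rw [one_smul] at this
    exact this
  have h2 : HasFDerivAt f (fderiv ℝ f y) (ln y c 0) := by rw [ln_zero]; exact hf.hasFDerivAt
  exact (h2.comp_hasDerivAt 0 h1).hasDerivWithinAt

theorem pd_eq {f : En n → ℝ} (hf : DifferentiableAt ℝ f y) {c : Fin n} {v : ℝ}
    (h : HasDerivWithinAt (fun r => f (ln y c r)) v univ 0) : pderiv c f y = v :=
  (pd_line hf c).hasDerivAt univ_mem |>.unique (h.hasDerivAt univ_mem)

theorem chr_eq (G : MetricField n) (y : En n) : christoffel G y = chr (iv G y) (jet G y) := by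
  funext k i j
  simp only [christoffel, chr, low, iv, jet, inverseField, mul_sum]
  exact sum_congr rfl fun l _ => by ring

theorem TG_eq (gb K : MetricField n) (y : En n) :
    TG gb K y = bar (K y) (jet K y) (christoffel gb y) := by
  funext c a b
  simp only [TG, a3, cov_two]; rfl

theorem TTG_eq (gb K : MetricField n) (y : En n) :
    TTG gb K y = bar3 (TG gb K y) (fun c d a b => pderiv c (fun z => TG gb K z d a b) y)
      (christoffel gb y) := by
  funext c d a b
  simp only [TTG, a4, cov_three]; rfl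

theorem riemann_eq (G : MetricField n) (y : En n) :
    riemann G y = rie (christoffel G y) (dGam G y) := rfl

theorem g_sy (hG : IsRiemannianOn G U) (hy : y ∈ U) : Sy2 (G y) := fun i j => by
  have := (hG.posDef y hy).isHermitian.apply j i
  simpa using this

theorem iv_sy (hG : IsRiemannianOn G U) (hy : y ∈ U) : Sy2 (iv G y) := ginv_symm hG hy

theorem iv_inv (hG : IsRiemannianOn G U) (hy : y ∈ U) : Iv (G y) (iv G y) :=
  ⟨fun v i => ginv_g_sum hG hy i v, fun v i => g_ginv_sum hG hy i v⟩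

theorem jet_sy (hK : ∀ᶠ z in 𝓝 y, Sy2 (K z)) : Sy3 (jet K y) := fun c a b =>
  pd_congr c (hK.mono fun _ hz => hz a b)

theorem g_sy_ev (hG : IsRiemannianOn G U) (hy : y ∈ U) : ∀ᶠ z in 𝓝 y, Sy2 (G z) :=
  mem_of_superset (hG.isOpen.mem_nhds hy) fun _ hz => g_sy hG hz

theorem gam_sy (hG : IsRiemannianOn G U) (hy : y ∈ U) : Sy3 (christoffel G y) := by
  rw [chr_eq]; exact chr_sy _ (jet_sy (g_sy_ev hG hy))

theorem dGam_sy (hG : IsRiemannianOn G U) (hy : y ∈ U) (c : Fin n) : Sy3 (dGam G y c) :=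
  fun k i j => pd_congr_on c hG.isOpen hy fun _ hz => gam_sy hG hz k i j

theorem TG_sy (gb : MetricField n) (hK : ∀ᶠ z in 𝓝 y, Sy2 (K z)) : Sy3 (TG gb K y) := by
  rw [TG_eq]; exact bar_sy _ hK.self_of_nhds (jet_sy hK)

theorem TTG_sy (gb : MetricField n) (hK : ∀ᶠ z in 𝓝 y, Sy2 (K z)) (c : Fin n) :
    Sy3 (TTG gb K y c) := fun d a b => by
  have h0 := TG_sy gb hK
  have h1 : pderiv c (fun z => TG gb K z d a b) y = pderiv c (fun z => TG gb K z d b a) y :=
    pd_congr c (hK.eventually_nhds.mono fun z hz => TG_sy gb hz d a b)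
  have h2 : ∀ m, TG gb K y m a b = TG gb K y m b a := fun m => h0 m a b
  have h3 : ∀ m, TG gb K y d m b = TG gb K y d b m := fun m => h0 d m b
  have h4 : ∀ m, TG gb K y d a m = TG gb K y d m a := fun m => h0 d a m
  simp only [TTG_eq, bar3, h1, h2, h3, h4]; ring

theorem ricci_eq_ricC (hG : IsRiemannianOn G U) (hy : y ∈ U) :
    ricci G y = ricC (christoffel G y) (dGam G y) := by
  funext i j
  simp only [ricci, ricC, cc, dGam]
  rw [pd_sum j _ fun k _ => dAt (sm_chr hG k k i) hG.isOpen hy]; ring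

theorem jet2_comm (hK : ∀ a b, ContDiffAt ℝ 2 (fun z => K z a b) y) (c d a b : Fin n) :
    jet2 K y c d a b = jet2 K y d c a b := pd_comm c d (hK a b)

/-- `Γ(G) - Γ(gb) = chr G⁻¹ (∇̄ G)` -/
theorem chr_TG (hb : IsRiemannianOn gb U) (hG : IsRiemannianOn G U) (hy : y ∈ U) :
    chr (iv G y) (TG gb G y) = christoffel G y - christoffel gb y := by
  rw [TG_eq, chr_bar _ (iv_inv hG hy) (g_sy hG hy) (gam_sy hb hy), ← chr_eq]

/-! ### differentiability -/

theorem d_mat (hK : ∀ a b, DifferentiableAt ℝ (fun z => K z a b) y) :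
    DifferentiableAt (F := M2 (Fin n) ℝ) ℝ K y :=
  differentiableAt_pi.2 fun a => differentiableAt_pi.2 fun b => hK a b

theorem d_g (hG : IsRiemannianOn G U) (hy : y ∈ U) (a b : Fin n) :
    DifferentiableAt ℝ (fun z => G z a b) y := dAt (hG.contDiffOn a b) hG.isOpen hy

theorem d_iv (hG : IsRiemannianOn G U) (hy : y ∈ U) : DifferentiableAt ℝ (iv G) y :=
  differentiableAt_pi.2 fun a => differentiableAt_pi.2 fun b => dAt (sm_inv hG a b) hG.isOpen hy

theorem d_sq (hG : IsRiemannianOn G U) (hy : y ∈ U) : DifferentiableAt ℝ (sq G) y :=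
  dAt (sm_sqrt_det hG) hG.isOpen hy

theorem d_TG (hb : IsRiemannianOn gb U) (hG : IsRiemannianOn G U) (hy : y ∈ U) :
    DifferentiableAt ℝ (TG gb G) y :=
  differentiableAt_pi.2 fun _ => differentiableAt_pi.2 fun _ => differentiableAt_pi.2 fun _ =>
    ((SmT.met hG).cov hb).dAt hG.isOpen hy _

theorem dA_ap {F : En n → Fin n → ℝ} (h : DifferentiableAt ℝ F y) (c : Fin n) :
    DifferentiableAt ℝ (fun z => F z c) y := differentiableAt_pi.1 h c

theorem dA_ap2 {F : En n → M2 (Fin n) ℝ} (h : DifferentiableAt ℝ F y) (c j : Fin n) :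
    DifferentiableAt ℝ (fun z => F z c j) y := differentiableAt_pi.1 (differentiableAt_pi.1 h c) j

/-! ### derivatives along coordinate lines -/

theorem ln_mat (hK : ∀ a b, DifferentiableAt ℝ (fun z => K z a b) y) (c : Fin n) :
    HD2 univ 0 (fun r => K (ln y c r)) (jet K y c) := fun a b => pd_line (hK a b) c

theorem ln_iv (hG : IsRiemannianOn G U) (hy : y ∈ U) (c : Fin n) :
    HD2 univ 0 (fun r => iv G (ln y c r)) (-up (iv G (ln y c 0)) (jet G y c)) :=
  hd_inv (ln_mat (d_g hG hy) c) (by rw [ln_zero]; exact (hG.posDef y hy).det_pos.ne')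

theorem hd_sqrt_det {J : Set ℝ} {t : ℝ} {A : ℝ → Matrix (Fin n) (Fin n) ℝ} {a : M2 (Fin n) ℝ}
    (hA : HD2 J t A a) (ha : Sy2 a) (hd : 0 < (A t).det) :
    HasDerivWithinAt (fun r => √(A r).det)
      ((1 / 2) * √(A t).det * tr2 (fun i j => (A t)⁻¹ i j) a) J t := by
  refine ((hd_det' hA ha hd.ne').sqrt hd.ne').congr_deriv ?_
  have h2 : √(A t).det ≠ 0 := (Real.sqrt_pos.2 hd).ne'
  have h3 : (A t).det = √(A t).det * √(A t).det := (Real.mul_self_sqrt hd.le).symm
  set s := √(A t).det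
  rw [h3]; field_simp

theorem ln_sq (hG : IsRiemannianOn G U) (hy : y ∈ U) (c : Fin n) :
    HasDerivWithinAt (fun r => sq G (ln y c r))
      ((1 / 2) * sq G (ln y c 0) * tr2 (iv G (ln y c 0)) (jet G y c)) univ 0 :=
  hd_sqrt_det (ln_mat (d_g hG hy) c) ((jet_sy (g_sy_ev hG hy)).ap c)
    (by rw [ln_zero]; exact (hG.posDef y hy).det_pos)

theorem ln_gam (hG : IsRiemannianOn G U) (hy : y ∈ U) (c : Fin n) :
    HD3 univ 0 (fun r => christoffel G (ln y c r)) (dGam G y c) := fun k i j =>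
  pd_line (dAt (sm_chr hG k i j) hG.isOpen hy) c

theorem pd_TG (hb : IsRiemannianOn gb U) (hK : ∀ a b, ContDiffAt ℝ 2 (fun z => K z a b) y)
    (hy : y ∈ U) : (fun c d a b => pderiv c (fun z => TG gb K z d a b) y) =
      dbar (K y) (jet K y) (jet2 K y) (christoffel gb y) (dGam gb y) := by
  funext c d a b
  have h1 : ∀ a b, DifferentiableAt ℝ (fun z => K z a b) y := fun a b =>
    (hK a b).differentiableAt (by norm_num)
  have h2 : ∀ d a b, DifferentiableAt ℝ (fun z => jet K z d a b) y := fun d a b =>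
    (R247.Bo84.contDiffAt_pderiv (m := 1) (hK a b) (by norm_num) d).differentiableAt (by norm_num)
  have h3 : ∀ k i j, DifferentiableAt ℝ (fun z => christoffel gb z k i j) y := fun k i j =>
    dAt (sm_chr hb k i j) hb.isOpen hy
  simp only [TG_eq, bar, dbar]
  rw [pd_sub c ((h2 d a b).fun_sub (.fun_sum fun m _ => (h3 m d a).fun_mul (h1 m b)))
    (.fun_sum fun m _ => (h3 m d b).fun_mul (h1 a m)),
    pd_sub c (h2 d a b) (.fun_sum fun m _ => (h3 m d a).fun_mul (h1 m b)),
    pd_sum c _ fun m _ => (h3 m d a).fun_mul (h1 m b),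
    pd_sum c _ fun m _ => (h3 m d b).fun_mul (h1 a m)]
  simp only [pd_mul c (h3 _ _ _) (h1 _ _)]
  rfl

theorem TTG_eq' (hb : IsRiemannianOn gb U) (hK : ∀ a b, ContDiffAt ℝ 2 (fun z => K z a b) y)
    (hy : y ∈ U) : TTG gb K y = bar3 (bar (K y) (jet K y) (christoffel gb y))
      (dbar (K y) (jet K y) (jet2 K y) (christoffel gb y) (dGam gb y)) (christoffel gb y) := by
  rw [TTG_eq, pd_TG hb hK hy, TG_eq]

theorem ln_TG (hb : IsRiemannianOn gb U) (hG : IsRiemannianOn G U) (hy : y ∈ U) (c : Fin n) :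
    HD3 univ 0 (fun r => TG gb G (ln y c r)) fun d a b => pderiv c (fun z => TG gb G z d a b) y :=
  fun _ _ _ => pd_line (((SmT.met hG).cov hb).dAt hG.isOpen hy _) c

theorem ln_chr (hb : IsRiemannianOn gb U) (hG : IsRiemannianOn G U) (hy : y ∈ U) (c : Fin n) :
    HD3 univ 0 (fun r => chr (iv G (ln y c r)) (TG gb G (ln y c r)))
      (dGam G y c - dGam gb y c) := fun k i j => by
  have hc : ContinuousAt (ln y c) 0 := by unfold ln; fun_prop
  have hev : ∀ᶠ r in 𝓝 (0 : ℝ), ln y c r ∈ U :=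
    hc.eventually (by rw [ln_zero]; exact hG.isOpen.mem_nhds hy)
  refine ((ln_gam hG hy c k i j).fun_sub (ln_gam hb hy c k i j)).congr_of_eventuallyEq
    (mem_nhdsWithin_of_mem_nhds (hev.mono fun r hr => ?_)) ?_
  · simp only [chr_TG hb hG hr, Pi.sub_apply]
  · simp only [chr_TG hb hG hev.self_of_nhds, Pi.sub_apply]

/-! ### the identities -/

/-- (A) `√G R = lag + ∂_c flux^c` -/
theorem eh_eq (hb : IsRiemannianOn gb U) (hG : IsRiemannianOn G U) (hy : y ∈ U) :
    sq G y * scalarCurv G y = lagF gb G y + ∑ c, pderiv c (fluxF gb G c) y := by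
  have h := eh_jet (sq G y) (dGam G y) (dGam gb y) (iv_inv hG hy) (g_sy hG hy) (iv_sy hG hy)
    (jet_sy (g_sy_ev hG hy)) (gam_sy hb hy)
  rw [← TG_eq gb G y, ← chr_eq G y, ← ricci_eq_ricC hG hy, ← ricci_eq_ricC hb hy] at h
  have h1 := d_iv hG hy
  have h2 := d_sq hG hy
  have h3 := d_TG hb hG hy
  have h5 := dA_flux h2 h1 h3
  have e : ∀ c, pderiv c (fluxF gb G c) y =
      fl (vG (sq G y) (iv G y) (jet G y c)) (chr (iv G y) (TG gb G y)) c +
        sq G y * fl (iv G y) (dGam G y c - dGam gb y c) c := fun c => by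
    have h6 := hd_fl (hd_sH (H := fun r => iv G (ln y c r)) (ln_sq hG hy c) (ln_iv hG hy c))
      (ln_chr hb hG hy c) c
    simp only [ln_zero, Pi.add_apply, fl_smul] at h6
    exact pd_eq (dA_ap h5 c) h6
  simp only [e]
  exact h

section Var

variable (hb : IsRiemannianOn gb U) (hG : IsRiemannianOn G U) (hy : y ∈ U)
  (hK : ∀ a b, DifferentiableAt ℝ (fun z => K z a b) y) (hKs : ∀ᶠ z in 𝓝 y, Sy2 (K z))
include hb hG hy hK

theorem pd_wL (c : Fin n) : pderiv c (fun z => wL (sq G z) (iv G z) (TG gb G z) (K z) c) y =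
    -(fl (dvG (sq G y) (iv G y) (K y) (jet G y c) (jet K y c)) (chr (iv G y) (TG gb G y)) c +
      fl (vG (sq G y) (iv G y) (K y)) (dGam G y c - dGam gb y c) c) := by
  have h1 := d_iv hG hy
  have h2 := d_sq hG hy
  have h3 := d_TG hb hG hy
  have h4 := d_mat hK
  have h5 := dA_wL h2 h1 h3 h4
  have h6 := (hd_fl (hd_vG (H := fun r => iv G (ln y c r)) (ln_sq hG hy c) (ln_iv hG hy c)
    (ln_mat hK c)) (ln_chr hb hG hy c) c).fun_neg
  simp only [ln_zero, Pi.add_apply] at h6
  exact pd_eq (dA_ap h5 c) h6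

include hKs

/-- (B) first variation of the Einstein-Hilbert Lagrangian -/
theorem dlag_eq : dlag (sq G y) (iv G y) (TG gb G y) (ricci gb y) (K y) (TG gb K y) =
    tr2 (vG (sq G y) (iv G y) (K y)) (ricci G y) +
      ∑ c, pderiv c (fun z => wL (sq G z) (iv G z) (TG gb G z) (K z) c) y := by
  have h := dlag_jet (sq G y) (dGam G y) (dGam gb y) (iv_inv hG hy) (g_sy hG hy) (iv_sy hG hy)
    hKs.self_of_nhds (jet_sy (g_sy_ev hG hy)) (jet_sy hKs) (gam_sy hb hy)
  rw [← TG_eq gb G y, ← TG_eq gb K y, ← chr_eq G y, ← ricci_eq_ricC hG hy,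
    ← ricci_eq_ricC hb hy] at h
  simp only [pd_wL hb hG hy hK, sum_neg_distrib]
  rw [h]; ring

/-- (B) first variation of the gauge-fixed Lagrangian -/
theorem dfgf_eq : dfgf (sq G y) (iv G y) (TG gb G y) (ricci gb y) (K y) (TG gb K y) =
    tr2 (vG (sq G y) (iv G y) (K y)) (a2 (redT gb G y)) +
      ∑ c, pderiv c (fun z => wF (sq G z) (iv G z) (TG gb G z) (K z) c) y := by
  have h := dgau_jet (sq G y) (iv_inv hG hy) (g_sy hG hy) (iv_sy hG hy)
    hKs.self_of_nhds (jet_sy (g_sy_ev hG hy)) (jet_sy hKs) (gam_sy hb hy)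
  rw [← TG_eq gb G y, ← TG_eq gb K y] at h
  have h1 := d_iv hG hy
  have h2 := d_sq hG hy
  have h3 := d_TG hb hG hy
  have h4 := d_mat hK
  have h5 := dA_wL h2 h1 h3 h4
  have h6 := dA_gv h1 h3
  have h7 := dA_vG h2 h1 h4
  have hB : ∀ j, DifferentiableAt ℝ (fun z => gv (iv G z) (TG gb G z) j) y := dA_ap h6
  have hX : ∀ c j, DifferentiableAt ℝ (fun z => vG (sq G z) (iv G z) (K z) c j) y := dA_ap2 h7
  have hX' : ∀ c j, pderiv c (fun z => vG (sq G z) (iv G z) (K z) c j) y =
      dvG (sq G y) (iv G y) (K y) (jet G y c) (jet K y c) c j := fun c j => by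
    refine pd_eq (hX c j) ?_
    have := hd_vG (H := fun r => iv G (ln y c r)) (ln_sq hG hy c) (ln_iv hG hy c)
      (ln_mat hK c) c j
    simp only [ln_zero] at this
    exact this
  have hW : ∀ c, pderiv c (fun z => wF (sq G z) (iv G z) (TG gb G z) (K z) c) y =
      pderiv c (fun z => wL (sq G z) (iv G z) (TG gb G z) (K z) c) y +
        ∑ j, (dvG (sq G y) (iv G y) (K y) (jet G y c) (jet K y c) c j * gv (iv G y) (TG gb G y) j +
          vG (sq G y) (iv G y) (K y) c j * pderiv c (fun z => gv (iv G z) (TG gb G z) j) y) :=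
    fun c => by
      simp only [wF]
      rw [pd_add c (dA_ap h5 c)
        (.fun_sum fun j _ => (hX c j).fun_mul (hB j)),
        pd_sum c _ fun j _ => (hX c j).fun_mul (hB j)]
      simp only [pd_mul c (hX _ _) (hB _), hX']
  have hS := vG_sy (sq G y) (iv_sy hG hy) hKs.self_of_nhds
  have hβ := gam_sy hb hy
  set X := vG (sq G y) (iv G y) (K y)
  set B := gv (iv G y) (TG gb G y) with hBd
  set dB : M2 (Fin n) ℝ := fun c j => pderiv c (fun z => gv (iv G z) (TG gb G z) j) y
  have e1 : a2 (redT gb G y) = ricci G y - (1 / 2 : ℝ) • dB - (1 / 2 : ℝ) • (fun i j => dB j i) +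
      (fun i j => ∑ m, christoffel gb y m i j * B m) + (1 / 2 : ℝ) • fun i j => B i * B j := by
    funext i j
    have : ∑ m, christoffel gb y m j i * B m = ∑ m, christoffel gb y m i j * B m :=
      sum_congr rfl fun m _ => by rw [hβ m j i]
    simp only [a2, redT, cov_one, gauT, Pi.add_apply, Pi.sub_apply, Pi.smul_apply, smul_eq_mul,
      Matrix.cons_val_zero, Matrix.cons_val_one, ← hBd, this, dB]
    ring
  have e2 : tr2 X (fun i j => dB j i) = tr2 X dB := by
    simp only [tr2]; rw [sum_comm]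
    exact sum_congr rfl fun a _ => sum_congr rfl fun b _ => by rw [hS b a]
  have e3 : tr2 X (fun i j => B i * B j) = ip1 X B B := rfl
  have e4 : ∑ c, ∑ j, X c j * dB c j = tr2 X dB := rfl
  simp only [dfgf, hW, sum_add_distrib]
  rw [dlag_eq hb hG hy hK hKs, h, e1, e4]
  simp only [tr2_add, tr2_sub, tr2_smul, e2, e3]
  ring

end Var

/-- `Ric(G) = Ric(gb) + ricJ` -/
theorem ricci_eq (hb : IsRiemannianOn gb U) (hG : IsRiemannianOn G U) (hy : y ∈ U) :
    ricci G y = ricci gb y + ricJ (iv G y) (TG gb G y) (TTG gb G y) := by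
  have hd : dGam G y = (fun c => dchr (iv G y) (TG gb G y) (jet G y c)
      fun d a b => pderiv c (fun z => TG gb G z d a b) y) + dGam gb y := by
    funext c k i j
    have h1 := hd_dchr (ln_iv hG hy c) (ln_TG hb hG hy c) k i j
    have h2 := ln_chr hb hG hy c k i j
    have := (h1.hasDerivAt univ_mem).unique (h2.hasDerivAt univ_mem)
    simp only [ln_zero, Pi.sub_apply] at this
    simp only [Pi.add_apply, this]; ring
  have hc : christoffel G y = chr (iv G y) (TG gb G y) + christoffel gb y := by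
    rw [chr_TG hb hG hy]; abel
  rw [ricci_eq_ricC hG hy, ricci_eq_ricC hb hy, hd, hc,
    ricC_add _ _ (gam_sy hb hy) (chr_sy _ (TG_sy gb (g_sy_ev hG hy))),
    covC_dchr (jet G y) _ _ (fun c d a b => pderiv c (fun z => TG gb G z d a b) y)
      (iv_inv hG hy) (g_sy hG hy) (iv_sy hG hy), ← TG_eq gb G y, ← TTG_eq gb G y]
  rfl

theorem cov_gauT (hb : IsRiemannianOn gb U) (hG : IsRiemannianOn G U) (hy : y ∈ U) (c j : Fin n) :
    cov gb (gauT gb G) y ![c, j] = dgv (iv G y) (TG gb G y) (TG gb G y c) (TTG gb G y c) j := by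
  have h1 := d_iv hG hy
  have h3 := d_TG hb hG hy
  have h := hd_dgv (ln_iv hG hy c) (ln_TG hb hG hy c) j
  simp only [ln_zero] at h
  have h' : pderiv c (fun z => gv (iv G z) (TG gb G z) j) y = _ :=
    pd_eq (by have := dA_ap (dA_gv h1 h3) j; exact this) h
  have h2 := cov_dgv (TG gb G y) (christoffel gb y)
    (fun c d a b => pderiv c (fun z => TG gb G z d a b) y) (iv_inv hG hy) (g_sy hG hy)
    (iv_sy hG hy) (jet_sy (g_sy_ev hG hy)) c j
  rw [← TG_eq gb G y, ← TTG_eq gb G y] at h2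
  rw [← h2, cov_one, ← h']
  rfl

/-- the reduced Ricci tensor as a polynomial in the covariant jets -/
theorem redT_eq_redJ (hb : IsRiemannianOn gb U) (hG : IsRiemannianOn G U) (hy : y ∈ U) :
    a2 (redT gb G y) = ricci gb y + redJ (iv G y) (TG gb G y) (TTG gb G y) := by
  funext i j
  simp only [a2, redT, Matrix.cons_val_zero, Matrix.cons_val_one, cov_gauT hb hG hy,
    ricci_eq hb hG hy, Pi.add_apply, redJ, gauT]
  ring

/-- (C) scalar principal part -/
theorem redT_eq (hb : IsRiemannianOn gb U) (hG : IsRiemannianOn G U) (hy : y ∈ U) (i j : Fin n) :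
    redT gb G y ![i, j] = -(1 / 2) * lapJ (iv G y) (TTG gb G y) i j +
      qd (iv G y) (TG gb G y) i j - cvJ (G y) (iv G y) (riemann gb y) i j := by
  have hG2 : ∀ a b, ContDiffAt ℝ 2 (fun z => G z a b) y := fun a b =>
    c2At (hG.contDiffOn a b) hG.isOpen hy
  have hT := TTG_sy gb (g_sy_ev hG hy)
  have h0 := congrFun (congrFun (redT_eq_redJ hb hG hy) i) j
  rw [TTG_eq' hb hG2 hy] at hT
  have h := red_jet (iv_inv hG hy) (g_sy hG hy) (iv_sy hG hy) (jet2_comm hG2) (gam_sy hb hy)
    (dGam_sy hb hy) hT i j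
  rw [← TTG_eq' hb hG2 hy, ← TG_eq gb G y, ← ricci_eq_ricC hb hy, ← riemann_eq gb y] at h
  rw [← h]; exact h0

end Crest.Agent.N207.Lg

end
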