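import Crest.Agent.N207.Lg.Defs

/-!
# Row 207 (helper54): index algebra for the Lagrangian, part 1
-/

set_option autoImplicit false
set_option linter.unusedSectionVars false

open Finset

noncomputable section

namespace Crest.Agent.N207.Lg

variable {ι 𝕜 : Type*} [Fintype ι] [Field 𝕜]

/-- symmetric -/
def Sy2 (H : M2 ι 𝕜) : Prop := ∀ i j, H i j = H j i
/-- symmetric in the last two indices -/
def Sy3 (C : M3 ι 𝕜) : Prop := ∀ k i j, C k i j = C k j i

theorem sum3_bij (φ : ι × ι × ι → ι × ι × ι) (hφ : Function.Injective φ) {f g : M3 ι 𝕜}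
    (h : ∀ a b c, f a b c = g (φ (a, b, c)).1 (φ (a, b, c)).2.1 (φ (a, b, c)).2.2) :
    ∑ a, ∑ b, ∑ c, f a b c = ∑ a, ∑ b, ∑ c, g a b c := by
  have e : ∀ f : M3 ι 𝕜, ∑ a, ∑ b, ∑ c, f a b c = ∑ x : ι × ι × ι, f x.1 x.2.1 x.2.2 := fun f => by
    simp only [Fintype.sum_prod_type]
  rw [e, e]
  exact Fintype.sum_bijective φ (Finite.injective_iff_bijective.1 hφ) _ _ fun x => h _ _ _

theorem sum4_bij (φ : ι × ι × ι × ι → ι × ι × ι × ι) (hφ : Function.Injective φ) {f g : M4 ι 𝕜}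
    (h : ∀ a b c d, f a b c d = g (φ (a, b, c, d)).1 (φ (a, b, c, d)).2.1 (φ (a, b, c, d)).2.2.1
      (φ (a, b, c, d)).2.2.2) :
    ∑ a, ∑ b, ∑ c, ∑ d, f a b c d = ∑ a, ∑ b, ∑ c, ∑ d, g a b c d := by
  have e : ∀ f : M4 ι 𝕜, ∑ a, ∑ b, ∑ c, ∑ d, f a b c d =
      ∑ x : ι × ι × ι × ι, f x.1 x.2.1 x.2.2.1 x.2.2.2 := fun f => by
    simp only [Fintype.sum_prod_type]
  rw [e, e]
  exact Fintype.sum_bijective φ (Finite.injective_iff_bijective.1 hφ) _ _ fun x => h _ _ _ _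

/-- reindex a triple sum: `perm3 a b c => (b, c, a)` leaves `f a b c = g b c a` -/
macro "perm3 " a:ident b:ident c:ident " => " t:term : tactic =>
  `(tactic| (
    refine sum3_bij (fun x => match x with | ($a, $b, $c) => $t)
      (by rintro ⟨_, _, _⟩ ⟨_, _, _⟩ h; simp only [Prod.mk.injEq] at h ⊢; tauto)
      fun $a $b $c => ?_
    try dsimp only))

/-- reindex a quadruple sum -/
macro "perm4 " a:ident b:ident c:ident d:ident " => " t:term : tactic =>
  `(tactic| (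
    refine sum4_bij (fun x => match x with | ($a, $b, $c, $d) => $t)
      (by rintro ⟨_, _, _, _⟩ ⟨_, _, _, _⟩ h; simp only [Prod.mk.injEq] at h ⊢; tauto)
      fun $a $b $c $d => ?_
    try dsimp only))

/-- the connection terms in the derivative of a contravariant symmetric 2-tensor DENSITY -/
def con (X : M2 ι 𝕜) (Γ : M3 ι 𝕜) (c : ι) : M2 ι 𝕜 := fun i j =>
  (∑ l, Γ l l c) * X i j - ∑ l, Γ i c l * X l j - ∑ l, Γ j c l * X i l

theorem low_sy {p : M3 ι 𝕜} (hp : Sy3 p) : Sy3 (low p) := fun m i j => by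
  simp only [low]; rw [hp m i j]; ring

theorem chr_sy (H : M2 ι 𝕜) {p : M3 ι 𝕜} (hp : Sy3 p) : Sy3 (chr H p) := fun k i j => by
  simp only [chr]; exact sum_congr rfl fun l _ => by rw [low_sy hp l i j]

theorem dchr_sy (H k : M2 ι 𝕜) {T τ : M3 ι 𝕜} (hT : Sy3 T) (hτ : Sy3 τ) : Sy3 (dchr H T k τ) :=
  fun a i j => by simp only [dchr]; rw [chr_sy H hτ a i j, chr_sy _ hT a i j]

theorem up_sy {H k : M2 ι 𝕜} (hH : Sy2 H) (hk : Sy2 k) : Sy2 (up H k) := fun i j => by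
  simp only [up]
  rw [sum_comm]
  exact sum_congr rfl fun a _ => sum_congr rfl fun b _ => by rw [hH i b, hH a j, hk b a]; ring

theorem vG_sy (s : 𝕜) {H k : M2 ι 𝕜} (hH : Sy2 H) (hk : Sy2 k) : Sy2 (vG s H k) := fun i j => by
  simp only [vG]; rw [hH i j, up_sy hH hk i j]

theorem bar_sy {g : M2 ι 𝕜} {p : M3 ι 𝕜} (β : M3 ι 𝕜) (hg : Sy2 g) (hp : Sy3 p) :
    Sy3 (bar g p β) := fun c a b => by
  simp only [bar]
  rw [hp c a b]
  have h1 : ∑ m, β m c a * g m b = ∑ m, β m c a * g b m := sum_congr rfl fun m _ => by rw [hg m b]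
  have h2 : ∑ m, β m c b * g a m = ∑ m, β m c b * g m a := sum_congr rfl fun m _ => by rw [hg m a]
  rw [h1, h2]; ring

theorem fl_add (X Y : M2 ι 𝕜) (C : M3 ι 𝕜) (c : ι) : fl (X + Y) C c = fl X C c + fl Y C c := by
  simp only [fl, Pi.add_apply, add_mul, sum_add_distrib]; ring

theorem fl_smul (s : 𝕜) (X : M2 ι 𝕜) (C : M3 ι 𝕜) (c : ι) : fl (s • X) C c = s * fl X C c := by
  simp only [fl, Pi.smul_apply, smul_eq_mul, mul_sub, mul_sum, mul_assoc]

theorem tr2_add (X a b : M2 ι 𝕜) : tr2 X (a + b) = tr2 X a + tr2 X b := by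
  simp only [tr2, Pi.add_apply, mul_add, sum_add_distrib]

theorem tr2_sub (X a b : M2 ι 𝕜) : tr2 X (a - b) = tr2 X a - tr2 X b := by
  simp only [tr2, Pi.sub_apply, mul_sub, sum_sub_distrib]

theorem tr2_smul (s : 𝕜) (X a : M2 ι 𝕜) : tr2 X (s • a) = s * tr2 X a := by
  simp only [tr2, Pi.smul_apply, smul_eq_mul, mul_sum]
  exact sum_congr rfl fun _ _ => sum_congr rfl fun _ _ => by ring

theorem tr2_comm (X a : M2 ι 𝕜) : tr2 X a = tr2 a X := by
  simp only [tr2]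
  exact sum_congr rfl fun _ _ => sum_congr rfl fun _ _ => by ring

theorem smul_tr2 (s : 𝕜) (X a : M2 ι 𝕜) : tr2 (s • X) a = s * tr2 X a := by
  rw [tr2_comm, tr2_smul, tr2_comm]

theorem add_tr2 (X Y a : M2 ι 𝕜) : tr2 (X + Y) a = tr2 X a + tr2 Y a := by
  rw [tr2_comm, tr2_add, tr2_comm, tr2_comm a Y]

theorem sub_tr2 (X Y a : M2 ι 𝕜) : tr2 (X - Y) a = tr2 X a - tr2 Y a := by
  rw [tr2_comm, tr2_sub, tr2_comm, tr2_comm a Y]

theorem cc_sub_left (C D E : M3 ι 𝕜) : cc (C - D) E = cc C E - cc D E := by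
  funext i j
  simp only [cc, Pi.sub_apply, sub_mul, sum_sub_distrib]; ring

theorem cc_sub_right (C D E : M3 ι 𝕜) : cc E (C - D) = cc E C - cc E D := by
  funext i j
  simp only [cc, Pi.sub_apply, mul_sub, sum_sub_distrib]; ring

/-- the core contraction identity -/
theorem fl_con {X : M2 ι 𝕜} {Γ : M3 ι 𝕜} (C : M3 ι 𝕜) (hX : Sy2 X) (hΓ : Sy3 Γ) :
    ∑ c, fl (con X Γ c) C c = -(tr2 X (cc Γ C) + tr2 X (cc C Γ)) := by
  have h1 : ∑ c, ∑ i, ∑ j, ∑ l, Γ l l c * X i j * C c i j =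
      ∑ i, ∑ j, ∑ k, ∑ l, X i j * (Γ k k l * C l i j) := by
    perm4 c i j l => (i, j, l, c); ring
  have h2 : ∑ c, ∑ i, ∑ j, ∑ l, Γ i c l * X l j * C c i j =
      ∑ i, ∑ j, ∑ k, ∑ l, X i j * (Γ k j l * C l k i) := by
    perm4 c i j l => (j, l, i, c); rw [hX j l, hΓ i l c]; ring
  have h3 : ∑ c, ∑ i, ∑ j, ∑ l, Γ j c l * X i l * C c i j =
      ∑ i, ∑ j, ∑ k, ∑ l, X i j * (C k j l * Γ l k i) := by
    perm4 c i j l => (l, i, c, j); rw [hX l i]; ring
  have h4 : ∑ c, ∑ i, ∑ j, ∑ l, Γ l l c * X i c * C j j i =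
      ∑ c, ∑ i, ∑ j, ∑ l, Γ c c l * X i l * C j j i := by
    perm4 c i j l => (l, i, j, c)
  have h5 : ∑ c, ∑ i, ∑ j, ∑ l, Γ i c l * X l c * C j j i =
      ∑ i, ∑ j, ∑ k, ∑ l, X i j * (C k k l * Γ l i j) := by
    perm4 c i j l => (c, l, j, i); rw [hX c l]; ring
  simp only [fl, con, tr2, cc, sub_mul, mul_sub, sum_mul, mul_sum, sum_sub_distrib]
  rw [h1, h2, h3, h4, h5]; ring

theorem fl_der (X : M2 ι 𝕜) (dC : M4 ι 𝕜) :
    ∑ c, fl X (dC c) c = tr2 X fun i j => ∑ k, dC k k i j - ∑ k, dC j k k i := by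
  have h1 : ∑ c, ∑ i, ∑ j, X i j * dC c c i j = ∑ i, ∑ j, ∑ k, X i j * dC k k i j := by
    perm3 c i j => (i, j, c)
  have h2 : ∑ c, ∑ i, ∑ j, X i c * dC c j j i = ∑ i, ∑ j, ∑ k, X i j * dC j k k i := by
    perm3 c i j => (i, c, j)
  simp only [fl, tr2, mul_sub, mul_sum, sum_sub_distrib]
  rw [h1, h2]

/-- Palatini identity against a symmetric density `X` with derivative `DX c + con X Γ c` -/
theorem palatini {X : M2 ι 𝕜} {Γ : M3 ι 𝕜} (β DX : M3 ι 𝕜) (dΓ dβ : M4 ι 𝕜) (hX : Sy2 X)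
    (hΓ : Sy3 Γ) :
    tr2 X (ricC Γ dΓ) = tr2 X (ricC β dβ) + tr2 X (cc (Γ - β) (Γ - β)) +
      ∑ c, (fl (DX c + con X Γ c) (Γ - β) c + fl X (dΓ c - dβ c) c) - ∑ c, fl (DX c) (Γ - β) c := by
  have h1 := fl_con (Γ - β) hX hΓ
  have h2 := fl_der X (dΓ - dβ)
  have h3 : ricC Γ dΓ = ricC β dβ + cc (Γ - β) (Γ - β) - cc Γ (Γ - β) - cc (Γ - β) Γ +
      fun i j => ∑ k, (dΓ - dβ) k k i j - ∑ k, (dΓ - dβ) j k k i := by
    funext i j
    simp only [cc_sub_left, cc_sub_right, ricC, Pi.add_apply, Pi.sub_apply, sum_sub_distrib]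
    ring
  simp only [fl_add, sum_add_distrib]
  have h4 : ∑ c, fl X (dΓ c - dβ c) c = ∑ c, fl X ((dΓ - dβ) c) c := rfl
  rw [h3, h4, h2, h1]
  simp only [tr2_add, tr2_sub]
  ring

/-! ### matrix forms -/

section Mat

variable [DecidableEq ι]

omit [DecidableEq ι] in
theorem up_eq (H k : M2 ι 𝕜) : up H k = (Matrix.of H * Matrix.of k * Matrix.of H : Matrix ι ι 𝕜) := by
  funext i j
  simp only [up, Matrix.mul_apply, Matrix.of_apply, sum_mul]
  rw [sum_comm]

omit [DecidableEq ι] in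
theorem tr2_eq (H : M2 ι 𝕜) {k : M2 ι 𝕜} (hk : Sy2 k) :
    tr2 H k = (Matrix.of H * Matrix.of k).trace := by
  simp only [tr2, Matrix.trace, Matrix.diag, Matrix.mul_apply, Matrix.of_apply]
  exact sum_congr rfl fun a _ => sum_congr rfl fun b _ => by rw [hk a b]

end Mat

/-- `A_c` with `A_c + A_cᵀ = p_c` -/
def lowM (p : M3 ι 𝕜) (c : ι) : Matrix ι ι 𝕜 := Matrix.of fun m l => low p m c l

omit [Fintype ι] in
theorem lowM_add [CharZero 𝕜] {p : M3 ι 𝕜} (hp : Sy3 p) (c : ι) :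
    lowM p c + (lowM p c).transpose = Matrix.of (p c) := by
  ext m l
  simp only [lowM, low, Matrix.add_apply, Matrix.transpose_apply, Matrix.of_apply]
  rw [hp c l m, hp l c m, hp m c l]; ring

omit [Fintype ι] in
theorem Sy2.tp {H : M2 ι 𝕜} (hH : Sy2 H) : (Matrix.of H).transpose = Matrix.of H := by
  ext i j; exact hH j i

theorem trace_half [CharZero 𝕜] {H A : Matrix ι ι 𝕜} (hH : H.transpose = H) :
    (H * A).trace = (1 / 2) * (H * (A + A.transpose)).trace := by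
  have : (H * A.transpose).trace = (H * A).trace := by
    rw [← Matrix.trace_transpose, Matrix.transpose_mul, Matrix.transpose_transpose, hH,
      Matrix.trace_mul_comm]
  rw [Matrix.mul_add, Matrix.trace_add, this]; ring

theorem con_chr (X K : M2 ι 𝕜) {p : M3 ι 𝕜} (hp : Sy3 p) (c : ι) :
    con X (chr K p) c = ((Matrix.of K * lowM p c).trace • Matrix.of X -
      Matrix.of K * lowM p c * Matrix.of X -
      Matrix.of X * (Matrix.of K * lowM p c).transpose : Matrix ι ι 𝕜) := by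
  funext i j
  simp only [con, chr, lowM, Matrix.sub_apply, Matrix.smul_apply, Matrix.mul_apply,
    Matrix.of_apply, Matrix.transpose_apply, Matrix.trace, Matrix.diag, smul_eq_mul]
  congr 1
  · congr 1
    congr 1
    exact sum_congr rfl fun l _ => sum_congr rfl fun m _ => by rw [low_sy hp m l c]
  · exact sum_congr rfl fun l _ => by ring

theorem con_sub (X : M2 ι 𝕜) (Γ D : M3 ι 𝕜) (c : ι) : con X (Γ - D) c = con X Γ c - con X D c := by
  funext i j
  simp only [con, Pi.sub_apply, sub_mul, sum_sub_distrib]; ring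

theorem vG_eq (s : 𝕜) (H : M2 ι 𝕜) {k : M2 ι 𝕜} (hk : Sy2 k) :
    vG s H k = (s • (((1 / 2) * (Matrix.of H * Matrix.of k).trace) • Matrix.of H -
      Matrix.of H * Matrix.of k * Matrix.of H) : Matrix ι ι 𝕜) := by
  funext i j
  simp only [vG, tr2_eq H hk, up_eq, Matrix.smul_apply, Matrix.sub_apply, Matrix.of_apply,
    smul_eq_mul]

/-- metric compatibility for the density `√g g⁻¹` -/
theorem vG_con [CharZero 𝕜] (s : 𝕜) {H : M2 ι 𝕜} {p : M3 ι 𝕜} (hH : Sy2 H) (hp : Sy3 p) (c : ι) :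
    vG s H (p c) = con (s • H) (chr H p) c := by
  rw [con_chr _ _ hp, vG_eq s H (hp c), trace_half (A := lowM p c) hH.tp, ← lowM_add hp c]
  have e : (Matrix.of (s • H) : Matrix ι ι 𝕜) = s • Matrix.of H := rfl
  rw [e, Matrix.transpose_mul, hH.tp]
  generalize (Matrix.of H * (lowM p c + (lowM p c).transpose)).trace = x1
  change (_ : Matrix ι ι 𝕜) = _
  simp only [Matrix.mul_add, Matrix.add_mul, Matrix.mul_smul, Matrix.smul_mul, Matrix.mul_assoc]
  module

/-- the derivative of `vG s H k` when `g` moves by `a` and `k` by `b` -/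
def dvG (s : 𝕜) (H k a b : M2 ι 𝕜) : M2 ι 𝕜 := fun i j =>
  (1 / 2) * tr2 H a * vG s H k i j +
    s * ((1 / 2) * (tr2 H b - tr2 (up H a) k) * H i j - (1 / 2) * tr2 H k * up H a i j -
      up H b i j + (∑ x, ∑ y, up H a i x * k x y * H y j + ∑ x, ∑ y, H i x * k x y * up H a y j))

theorem dvG_con [CharZero 𝕜] (s : 𝕜) {H k : M2 ι 𝕜} {p π : M3 ι 𝕜} (hH : Sy2 H) (hk : Sy2 k)
    (hp : Sy3 p) (hπ : Sy3 π) (c : ι) :
    dvG s H k (p c) (π c) = con (s • H) (dchr H p k π) c + con (vG s H k) (chr H p) c := by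
  have e0 : dchr H p k π = chr H π - chr (up H k) p := rfl
  have e : (Matrix.of (s • H) : Matrix ι ι 𝕜) = s • Matrix.of H := rfl
  have e1 : dvG s H k (p c) (π c) =
      (((1 / 2) * (Matrix.of H * Matrix.of (p c)).trace) • Matrix.of (vG s H k) +
      s • (((1 / 2) * ((Matrix.of H * Matrix.of (π c)).trace -
        (Matrix.of (up H (p c)) * Matrix.of k).trace)) • Matrix.of H -
        ((1 / 2) * (Matrix.of H * Matrix.of k).trace) • Matrix.of (up H (p c)) -
        Matrix.of (up H (π c)) + (Matrix.of (up H (p c)) * Matrix.of k * Matrix.of H +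
        Matrix.of H * Matrix.of k * Matrix.of (up H (p c)))) : Matrix ι ι 𝕜) := by
    funext i j
    simp only [dvG, tr2_eq _ hk, tr2_eq _ (hp c), tr2_eq _ (hπ c), Matrix.smul_apply,
      Matrix.sub_apply, Matrix.add_apply, Matrix.of_apply, smul_eq_mul, Matrix.mul_apply, sum_mul]
    rw [sum_comm (f := fun x y => up H (p c) i x * k x y * H y j),
      sum_comm (f := fun x y => H i x * k x y * up H (p c) y j)]
  have u1 : ∀ a : M2 ι 𝕜, (Matrix.of (up H a) : Matrix ι ι 𝕜) =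
      Matrix.of H * Matrix.of a * Matrix.of H := fun a => up_eq H a
  have u2 : (Matrix.of (vG s H k) : Matrix ι ι 𝕜) = s • (((1 / 2) * (Matrix.of H * Matrix.of k).trace) • Matrix.of H -
      Matrix.of H * Matrix.of k * Matrix.of H) := vG_eq s H hk
  have t1 : (Matrix.of H * Matrix.of (p c) * Matrix.of H * Matrix.of k).trace =
      (Matrix.of H * Matrix.of k * Matrix.of H * Matrix.of (p c) : Matrix ι ι 𝕜).trace := by
    rw [Matrix.mul_assoc (Matrix.of H * Matrix.of (p c)), Matrix.trace_mul_comm,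
      ← Matrix.mul_assoc]
  rw [e1, e0, con_sub, con_chr _ _ hp, con_chr _ _ hp, con_chr _ _ hπ,
    trace_half (A := lowM p c) hH.tp, trace_half (A := lowM π c) hH.tp,
    trace_half (A := lowM p c) (up_sy hH hk).tp, lowM_add hp, lowM_add hπ]
  simp only [u1, u2, e, t1]
  rw [← lowM_add hp, ← lowM_add hπ]
  generalize (Matrix.of H * (lowM p c + (lowM p c).transpose)).trace = x1
  generalize (Matrix.of H * (lowM π c + (lowM π c).transpose)).trace = x2
  generalize (Matrix.of H * Matrix.of k * Matrix.of H *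
    (lowM p c + (lowM p c).transpose)).trace = x3
  generalize (Matrix.of H * Matrix.of k).trace = x4
  change _ = (_ - _ + _ : Matrix ι ι 𝕜)
  simp only [Matrix.transpose_mul, hH.tp, hk.tp, Matrix.mul_add, Matrix.add_mul, Matrix.mul_sub,
    Matrix.sub_mul, Matrix.mul_smul, Matrix.smul_mul, Matrix.mul_assoc]
  module

end Crest.Agent.N207.Lg

end
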