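import Crest.Agent.N207.Lg.Alg1

/-!
# Row 207 (helper54): index algebra for the Lagrangian, part 2: first variation, covariance
-/

set_option autoImplicit false
set_option linter.unusedSectionVars false

open Finset

noncomputable section

namespace Crest.Agent.N207.Lg

variable {ι 𝕜 : Type*} [Fintype ι] [Field 𝕜]

/-- `H` is the inverse of `g` -/
structure Iv (g H : M2 ι 𝕜) : Prop where
  l : ∀ (v : ι → 𝕜) i, ∑ l, H i l * ∑ m, g l m * v m = v i
  r : ∀ (v : ι → 𝕜) i, ∑ l, g i l * ∑ m, H l m * v m = v i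

theorem low_bar [CharZero 𝕜] {k : M2 ι 𝕜} (π : M3 ι 𝕜) {β : M3 ι 𝕜} (hk : Sy2 k) (hβ : Sy3 β)
    (m i j : ι) : low (bar k π β) m i j = low π m i j - ∑ l, k m l * β l i j := by
  have h1 : ∑ l, β l i j * k l m = ∑ l, k m l * β l i j :=
    sum_congr rfl fun l _ => by rw [hk l m]; ring
  have h2 : ∑ l, β l j i * k l m = ∑ l, k m l * β l i j :=
    sum_congr rfl fun l _ => by rw [hk l m, hβ l j i]; ring
  have h3 : ∑ l, β l i m * k j l = ∑ l, β l m j * k i l - ∑ l, β l m j * k i l +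
      ∑ l, β l m i * k l j := by
    rw [sub_self, zero_add]; exact sum_congr rfl fun l _ => by rw [hk l j, hβ l i m]
  have h4 : ∑ l, β l j m * k i l = ∑ l, β l m j * k i l :=
    sum_congr rfl fun l _ => by rw [hβ l j m]
  simp only [low, bar]
  rw [h1, h2, h3, h4]; ring

/-- `Γ(g) - β = chr H (∇̄ g)` -/
theorem chr_bar [CharZero 𝕜] {g H : M2 ι 𝕜} (p : M3 ι 𝕜) {β : M3 ι 𝕜} (hI : Iv g H) (hg : Sy2 g)
    (hβ : Sy3 β) : chr H (bar g p β) = chr H p - β := by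
  funext a i j
  simp only [chr, low_bar p hg hβ, Pi.sub_apply, mul_sub, sum_sub_distrib]
  rw [hI.l (fun l => β l i j) a]

theorem up_mul {g H : M2 ι 𝕜} (k : M2 ι 𝕜) (hI : Iv g H) (v : ι → 𝕜) (a : ι) :
    ∑ l, up H k a l * ∑ m, g l m * v m = ∑ b, H a b * ∑ m, k b m * v m := by
  have : ∀ l, up H k a l = ∑ y, (∑ x, H a x * k x y) * H y l := fun l => by
    simp only [up, sum_mul]; rw [sum_comm]
  have h2 : ∑ l, (∑ y, (∑ x, H a x * k x y) * H y l) * ∑ m, g l m * v m =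
      ∑ y, (∑ x, H a x * k x y) * ∑ l, H y l * ∑ m, g l m * v m := by
    generalize (fun y => ∑ x, H a x * k x y) = P at *
    simp only [sum_mul]
    rw [sum_comm]
    refine sum_congr rfl fun y _ => ?_
    rw [sum_comm]
    refine sum_congr rfl fun x _ => ?_
    rw [mul_sum]
    exact sum_congr rfl fun l _ => by ring
  simp only [this]
  rw [h2]
  simp only [hI.l]
  simp only [sum_mul, mul_sum]
  rw [sum_comm]
  exact sum_congr rfl fun x _ => sum_congr rfl fun y _ => by ring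

theorem dchr_bar [CharZero 𝕜] {g H k : M2 ι 𝕜} (p π : M3 ι 𝕜) {β : M3 ι 𝕜} (hI : Iv g H)
    (hg : Sy2 g) (hk : Sy2 k) (hβ : Sy3 β) :
    dchr H (bar g p β) k (bar k π β) = dchr H p k π := by
  funext a i j
  simp only [dchr, chr, low_bar p hg hβ, low_bar π hk hβ, mul_sub, sum_sub_distrib]
  rw [up_mul k hI (fun l => β l i j) a]; ring

theorem low_tr [CharZero 𝕜] {Y : M2 ι 𝕜} (T : M3 ι 𝕜) (hY : Sy2 Y) (m : ι) :
    ∑ c, ∑ l, Y c l * low T m c l = gv Y T m := by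
  have h1 : ∑ c, ∑ l, Y c l * T l c m = ∑ c, ∑ l, Y c l * T c l m := by
    rw [sum_comm]; exact sum_congr rfl fun c _ => sum_congr rfl fun l _ => by rw [hY l c]
  have h2 : ∀ c l, Y c l * low T m c l =
      (1 / 2) * (Y c l * T c l m) + (1 / 2) * (Y c l * T l c m) - (1 / 2) * (Y c l * T m c l) :=
    fun c l => by simp only [low]; ring
  simp only [h2, sum_sub_distrib, sum_add_distrib, ← mul_sum, gv, uT, vT, tr2]
  rw [h1]; ring

theorem chr_tr [CharZero 𝕜] (K : M2 ι 𝕜) {Y : M2 ι 𝕜} (T : M3 ι 𝕜) (hY : Sy2 Y)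
    (j : ι) : ∑ c, ∑ l, chr K T j c l * Y c l = ∑ m, K j m * gv Y T m := by
  simp only [← low_tr T hY, chr, sum_mul, mul_sum]
  perm3 c l m => (m, c, l); ring

theorem con_tr (X : M2 ι 𝕜) (Γ : M3 ι 𝕜) (j : ι) :
    ∑ c, con X Γ c c j = -∑ c, ∑ l, Γ j c l * X c l := by
  have h : ∑ c, ∑ l, Γ l l c * X c j = ∑ c, ∑ l, Γ c c l * X l j := sum_comm
  simp only [con, sum_mul, sum_sub_distrib]
  rw [h]; ring

theorem vG_def (s : 𝕜) (H k : M2 ι 𝕜) : vG s H k = s • (((1 / 2) * tr2 H k) • H - up H k) := rfl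

theorem gv_smul (s : 𝕜) (X : M2 ι 𝕜) (T : M3 ι 𝕜) (m : ι) : gv (s • X) T m = s * gv X T m := by
  simp only [gv, uT, vT, smul_tr2, Pi.smul_apply, smul_eq_mul, mul_assoc, ← mul_sum]; ring

theorem gv_sub (X Y : M2 ι 𝕜) (T : M3 ι 𝕜) (m : ι) : gv (X - Y) T m = gv X T m - gv Y T m := by
  simp only [gv, uT, vT, sub_tr2, Pi.sub_apply, sub_mul, sum_sub_distrib]; ring

theorem gv_vG (s : 𝕜) (H k : M2 ι 𝕜) (T : M3 ι 𝕜) (m : ι) :
    gv (vG s H k) T m = s * ((1 / 2) * tr2 H k * gv H T m - gv (up H k) T m) := by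
  rw [vG_def, gv_smul, gv_sub, gv_smul]

theorem ip1_smul (s : 𝕜) (X : M2 ι 𝕜) (u v : ι → 𝕜) : ip1 (s • X) u v = s * ip1 X u v := by
  simp only [ip1, Pi.smul_apply, smul_eq_mul, mul_assoc, ← mul_sum]

theorem ip1_sub (X Y : M2 ι 𝕜) (u v : ι → 𝕜) : ip1 (X - Y) u v = ip1 X u v - ip1 Y u v := by
  simp only [ip1, Pi.sub_apply, sub_mul, sum_sub_distrib]

theorem ip1_vG (s : 𝕜) (H k : M2 ι 𝕜) (u v : ι → 𝕜) :
    ip1 (vG s H k) u v = s * ((1 / 2) * tr2 H k * ip1 H u v - ip1 (up H k) u v) := by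
  rw [vG_def, ip1_smul, ip1_sub, ip1_smul]

theorem ip1_comm {H : M2 ι 𝕜} (hH : Sy2 H) (u v : ι → 𝕜) : ip1 H u v = ip1 H v u := by
  simp only [ip1]
  rw [sum_comm]
  exact sum_congr rfl fun a _ => sum_congr rfl fun b _ => by rw [hH a b]; ring

theorem ip1_eq (H : M2 ι 𝕜) (u v : ι → 𝕜) : ip1 H u v = ∑ j, (∑ m, H j m * v m) * u j := by
  simp only [ip1, sum_mul]
  exact sum_congr rfl fun a _ => sum_congr rfl fun b _ => by ring

theorem tr2_vG (s : 𝕜) (H k X : M2 ι 𝕜) :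
    tr2 (vG s H k) X = s * ((1 / 2) * tr2 H k * tr2 H X - tr2 (up H k) X) := by
  rw [vG_def, smul_tr2, sub_tr2, smul_tr2]

section Var

variable [CharZero 𝕜] {g H k : M2 ι 𝕜} {p π β : M3 ι 𝕜}

/-- `√g R = lag + div flux` on jets -/
theorem eh_jet (s : 𝕜) (dΓ dβ : M4 ι 𝕜) (hI : Iv g H) (hg : Sy2 g) (hH : Sy2 H) (hp : Sy3 p)
    (hβ : Sy3 β) :
    s * tr2 H (ricC (chr H p) dΓ) = lag s H (bar g p β) (ricC β dβ) +
      ∑ c, (fl (vG s H (p c)) (chr H (bar g p β)) c + s * fl H (dΓ c - dβ c) c) := by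
  have hX : Sy2 (s • H) := fun i j => by simp only [Pi.smul_apply]; rw [hH i j]
  have h := palatini β 0 dΓ dβ hX (chr_sy H hp)
  have h0 : ∀ c, fl (0 : M2 ι 𝕜) (chr H p - β) c = 0 := fun c => by simp [fl]
  simp only [h0, Pi.zero_apply, zero_add, smul_tr2, fl_smul, sum_const_zero, ← vG_con s hH hp] at h
  rw [lag, ell, chr_bar p hI hg hβ, h]; ring

/-- first variation of `lag` on jets -/
theorem dlag_jet (s : 𝕜) (dΓ dβ : M4 ι 𝕜) (hI : Iv g H) (hg : Sy2 g) (hH : Sy2 H) (hk : Sy2 k)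
    (hp : Sy3 p) (hπ : Sy3 π) (hβ : Sy3 β) :
    dlag s H (bar g p β) (ricC β dβ) k (bar k π β) = tr2 (vG s H k) (ricC (chr H p) dΓ) -
      ∑ c, (fl (dvG s H k (p c) (π c)) (chr H (bar g p β)) c +
        fl (vG s H k) (dΓ c - dβ c) c) := by
  have hX : Sy2 (s • H) := fun i j => by simp only [Pi.smul_apply]; rw [hH i j]
  have h := palatini β (con (s • H) (dchr H p k π)) dΓ dβ (vG_sy s hH hk) (chr_sy H hp)
  rw [fl_con _ hX (dchr_sy H k hp hπ)] at h
  simp only [← dvG_con s hH hk hp hπ, smul_tr2] at h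
  rw [dlag, dchr_bar p π hI hg hk hβ, chr_bar p hI hg hβ, h]; ring

/-- first variation of `gau` on jets -/
theorem dgau_jet (s : 𝕜) (hI : Iv g H) (hg : Sy2 g) (hH : Sy2 H) (hk : Sy2 k)
    (hp : Sy3 p) (hπ : Sy3 π) (hβ : Sy3 β) :
    dgau s H (bar g p β) k (bar k π β) =
      -(1 / 2) * ip1 (vG s H k) (gv H (bar g p β)) (gv H (bar g p β)) -
        tr2 (vG s H k) (fun i j => ∑ m, β m i j * gv H (bar g p β) m) -
        ∑ c, ∑ j, dvG s H k (p c) (π c) c j * gv H (bar g p β) j := by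
  have hT := bar_sy β hg hp
  have hτ := bar_sy β hk hπ
  set T := bar g p β with hTd
  set τ := bar k π β
  have hΓ : chr H p = chr H T + β := by rw [hTd, chr_bar p hI hg hβ]; abel
  have h1 : ∀ j, ∑ c, dvG s H k (p c) (π c) c j =
      -(s * (∑ m, H j m * gv H τ m - ∑ m, up H k j m * gv H T m)) -
        ∑ m, H j m * gv (vG s H k) T m - ∑ c, ∑ l, β j c l * vG s H k c l := fun j => by
    simp only [dvG_con s hH hk hp hπ, Pi.add_apply, sum_add_distrib, con_tr]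
    rw [← dchr_bar p π hI hg hk hβ, hΓ, ← chr_tr H τ hH, ← chr_tr _ T hH,
      ← chr_tr H T (vG_sy s hH hk)]
    simp only [dchr, Pi.add_apply, Pi.smul_apply, smul_eq_mul, add_mul, sub_mul, sum_add_distrib,
      sum_sub_distrib, mul_sub, mul_sum]
    have e : ∀ x y : 𝕜, x * (s * y) = s * (x * y) := fun x y => by ring
    simp only [e]
    ring
  have h2 : tr2 (vG s H k) (fun i j => ∑ m, β m i j * gv H T m) =
      ∑ j, (∑ c, ∑ l, β j c l * vG s H k c l) * gv H T j := by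
    simp only [tr2, mul_sum, sum_mul]
    perm3 a b m => (m, a, b); ring
  have h3 : ip1 H (gv H T) (dgv H T k τ) =
      ip1 H (gv H T) (gv H τ) - ip1 H (gv H T) (gv (up H k) T) := by
    simp only [ip1, dgv, mul_sub, sum_sub_distrib]
  have h4 : ∑ j, (∑ m, H j m * gv (vG s H k) T m) * gv H T j =
      s * ((1 / 2) * tr2 H k * ip1 H (gv H T) (gv H T) - ip1 H (gv H T) (gv (up H k) T)) := by
    rw [← ip1_eq]
    simp only [ip1, gv_vG]
    generalize tr2 H k = t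
    simp only [mul_sub, sum_sub_distrib, mul_sum]
    congr 1 <;> exact sum_congr rfl fun a _ => sum_congr rfl fun b _ => by ring
  rw [sum_comm]
  simp only [← sum_mul, h1]
  simp only [sub_mul, sum_sub_distrib, neg_mul, sum_neg_distrib, mul_assoc, ← mul_sum]
  rw [h2, h4, dgau, ip1_comm hH (dgv H T k τ), h3, ip1_vG, ← ip1_eq, ← ip1_eq]
  ring

end Var

end Crest.Agent.N207.Lg

end
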