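import Crest.Agent.N207.Lg.Alg2

/-!
# Row 207 (helper54): index algebra for the Lagrangian, part 3: covariance, principal part
-/

set_option autoImplicit false
set_option linter.unusedSectionVars false

open Finset

noncomputable section

namespace Crest.Agent.N207.Lg

variable {ι 𝕜 : Type*} [Fintype ι] [Field 𝕜]

/-- covariant derivative of a `(1,2)`-tensor -/
def covC (β C : M3 ι 𝕜) (dC : M4 ι 𝕜) : M4 ι 𝕜 := fun c k i j =>
  dC c k i j + ∑ m, β k c m * C m i j - ∑ m, β m c i * C k m j - ∑ m, β m c j * C k i m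

/-- covariant derivative of a 3-tensor -/
def bar3 (T : M3 ι 𝕜) (dT : M4 ι 𝕜) (β : M3 ι 𝕜) : M4 ι 𝕜 := fun c d a b =>
  dT c d a b - ∑ m, β m c d * T m a b - ∑ m, β m c a * T d m b - ∑ m, β m c b * T d a m

/-- curvature of a connection -/
def rie (β : M3 ι 𝕜) (dβ : M4 ι 𝕜) : M4 ι 𝕜 := fun l k i j =>
  dβ i l j k - dβ j l i k + ∑ a, (β l i a * β a j k - β l j a * β a i k)

/-- derivative of `bar g p β` -/
def dbar (g : M2 ι 𝕜) (p : M3 ι 𝕜) (q : M4 ι 𝕜) (β : M3 ι 𝕜) (dβ : M4 ι 𝕜) : M4 ι 𝕜 :=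
  fun c d a b => q c d a b - ∑ m, (dβ c m d a * g m b + β m d a * p c m b) -
    ∑ m, (dβ c m d b * g a m + β m d b * p c a m)

/-- the curvature term of the reduced Ricci operator; `R m l k i = R^m_{lki}` of the background -/
def cvJ (g H : M2 ι 𝕜) (R : M4 ι 𝕜) : M2 ι 𝕜 := fun i j =>
  (1 / 2) * ∑ k, ∑ l, ∑ m, H k l * (R m l k i * g m j + R m l k j * g m i)

theorem ricC_add {β C : M3 ι 𝕜} (dβ dC : M4 ι 𝕜) (hβ : Sy3 β) (hC : Sy3 C) :
    ricC (C + β) (dC + dβ) = ricC β dβ + ricC C (covC β C dC) := by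
  funext i j
  have h1 : ∑ k, ∑ m, β m k j * C k i m = ∑ k, ∑ m, β m j k * C k m i :=
    sum_congr rfl fun k _ => sum_congr rfl fun m _ => by rw [hβ m k j, hC k i m]
  have h2 : ∑ k, ∑ m, β m k i * C k m j = ∑ k, ∑ l, C k j l * β l k i :=
    sum_congr rfl fun k _ => sum_congr rfl fun m _ => by rw [hC k m j]; ring
  have h3 : ∑ k, ∑ m, β m j i * C k k m = ∑ k, ∑ l, C k k l * β l i j :=
    sum_congr rfl fun k _ => sum_congr rfl fun m _ => by rw [hβ m j i]; ring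
  simp only [ricC, cc, covC, Pi.add_apply, add_mul, mul_add, sum_add_distrib, sum_sub_distrib]
  rw [h1, h2, h3]; ring

theorem up_bar {g H : M2 ι 𝕜} (p β : M3 ι 𝕜) (hI : Iv g H) (hg : Sy2 g) (hH : Sy2 H) (c i j : ι) :
    up H (bar g p β c) i j = up H (p c) i j - ∑ a, H i a * β j c a - ∑ b, β i c b * H b j := by
  have h1 : ∑ a, ∑ b, H i a * (∑ m, β m c a * g m b) * H b j = ∑ a, H i a * β j c a :=
    sum_congr rfl fun a _ => by
      rw [← hI.l (fun m => β m c a) j, mul_sum]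
      refine sum_congr rfl fun b _ => ?_
      rw [hH j b, mul_assoc, mul_comm (H b j)]
      congr 2
      exact sum_congr rfl fun m _ => by rw [hg m b]; ring
  have h2 : ∑ a, ∑ b, H i a * (∑ m, β m c b * g a m) * H b j = ∑ b, β i c b * H b j := by
    rw [sum_comm]
    refine sum_congr rfl fun b _ => ?_
    rw [← hI.l (fun m => β m c b) i, sum_mul]
    refine sum_congr rfl fun a _ => ?_
    congr 2
    exact sum_congr rfl fun m _ => by ring
  simp only [up, bar, mul_sub, sub_mul, sum_sub_distrib]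
  rw [h1, h2]

theorem low_bar3 [CharZero 𝕜] (T : M3 ι 𝕜) (dT : M4 ι 𝕜) (β : M3 ι 𝕜) (c l i j : ι) :
    low (bar3 T dT β c) l i j = low (dT c) l i j - ∑ m, β m c i * low T l m j -
      ∑ m, β m c j * low T l i m - ∑ m, β m c l * low T m i j := by
  have h : ∀ (x a b d : 𝕜), x * (1 / 2 * (a + b - d)) = 1 / 2 * (x * a) + 1 / 2 * (x * b) -
      1 / 2 * (x * d) := fun x a b d => by ring
  simp only [low, bar3, h, sum_add_distrib, sum_sub_distrib, ← mul_sum]
  ring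

/-- covariance of `dchr` -/
theorem covC_dchr [CharZero 𝕜] {g H : M2 ι 𝕜} (p T β : M3 ι 𝕜) (dT : M4 ι 𝕜) (hI : Iv g H)
    (hg : Sy2 g) (hH : Sy2 H) :
    covC β (chr H T) (fun c => dchr H T (p c) (dT c)) =
      fun c => dchr H T (bar g p β c) (bar3 T dT β c) := by
  funext c k i j
  have h1 : ∑ l, H k l * ∑ m, β m c i * low T l m j = ∑ m, β m c i * ∑ l, H k l * low T l m j := by
    simp only [mul_sum]; rw [sum_comm]
    exact sum_congr rfl fun _ _ => sum_congr rfl fun _ _ => by ring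
  have h2 : ∑ l, H k l * ∑ m, β m c j * low T l i m = ∑ m, β m c j * ∑ l, H k l * low T l i m := by
    simp only [mul_sum]; rw [sum_comm]
    exact sum_congr rfl fun _ _ => sum_congr rfl fun _ _ => by ring
  have h3 : ∑ l, H k l * ∑ m, β m c l * low T m i j =
      ∑ l, (∑ a, H k a * β l c a) * low T l i j := by
    simp only [mul_sum, sum_mul]; rw [sum_comm]
    exact sum_congr rfl fun _ _ => sum_congr rfl fun _ _ => by ring
  have h4 : ∑ l, (∑ b, β k c b * H b l) * low T l i j =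
      ∑ m, β k c m * ∑ l, H m l * low T l i j := by
    simp only [mul_sum, sum_mul]; rw [sum_comm]
    exact sum_congr rfl fun _ _ => sum_congr rfl fun _ _ => by ring
  simp only [covC, dchr, chr, low_bar3, up_bar p β hI hg hH, mul_sub, sub_mul, sum_sub_distrib]
  rw [h1, h2, h3, h4]; ring

theorem Sy3.ap {T : M3 ι 𝕜} (hT : Sy3 T) (c : ι) : Sy2 (T c) := hT c

/-- covariance of `dgv` -/
theorem cov_dgv [CharZero 𝕜] {g H : M2 ι 𝕜} {p : M3 ι 𝕜} (T β : M3 ι 𝕜) (dT : M4 ι 𝕜)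
    (hI : Iv g H) (hg : Sy2 g) (hH : Sy2 H) (hp : Sy3 p) (c j : ι) :
    dgv H T (p c) (dT c) j - ∑ m, β m c j * gv H T m =
      dgv H T (bar g p β c) (bar3 T dT β c) j := by
  have h1 : ∑ a, ∑ b, H a b * ∑ m, β m c a * low T j m b =
      ∑ a, ∑ b, (∑ x, β a c x * H x b) * low T j a b := by
    simp only [mul_sum, sum_mul]
    perm3 a b m => (m, b, a); ring
  have h2 : ∑ a, ∑ b, H a b * ∑ m, β m c b * low T j a m =
      ∑ a, ∑ b, (∑ x, H a x * β b c x) * low T j a b := by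
    simp only [mul_sum, sum_mul]
    perm3 a b m => (a, m, b); ring
  have h3 : ∑ a, ∑ b, H a b * ∑ m, β m c j * low T m a b =
      ∑ m, β m c j * ∑ a, ∑ b, H a b * low T m a b := by
    simp only [mul_sum]
    perm3 a b m => (m, a, b); ring
  simp only [dgv, ← low_tr _ hH, ← low_tr _ (up_sy hH (hp.ap c)),
    ← low_tr _ (up_sy hH ((bar_sy β hg hp).ap c)), low_bar3, up_bar p β hI hg hH, mul_sub, sub_mul,
    sum_sub_distrib]
  rw [h1, h2, h3]; ring

/-- Ricci identity for the second covariant derivative of `g` -/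
theorem bar3_comm (g : M2 ι 𝕜) (p : M3 ι 𝕜) {q : M4 ι 𝕜} {β : M3 ι 𝕜} (dβ : M4 ι 𝕜)
    (hq : ∀ c d a b, q c d a b = q d c a b) (hβ : Sy3 β) (c d a b : ι) :
    bar3 (bar g p β) (dbar g p q β dβ) β c d a b - bar3 (bar g p β) (dbar g p q β dβ) β d c a b =
      -∑ m, rie β dβ m a c d * g m b - ∑ m, rie β dβ m b c d * g a m := by
  have h1 : ∀ c d, ∑ m, ∑ x, β m c a * (β x d m * g x b) = ∑ m, ∑ x, β m d x * β x c a * g m b :=
    fun c d => by
      rw [sum_comm]; exact sum_congr rfl fun _ _ => sum_congr rfl fun _ _ => by ring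
  have h2 : ∀ c d, ∑ m, ∑ x, β m c b * (β x d m * g a x) = ∑ m, ∑ x, β m d x * β x c b * g a m :=
    fun c d => by
      rw [sum_comm]; exact sum_congr rfl fun _ _ => sum_congr rfl fun _ _ => by ring
  have h3 : ∀ c d, ∑ m, ∑ x, β m c b * (β x d a * g x m) = ∑ m, ∑ x, β m d a * (β x c b * g m x) :=
    fun c d => by
      rw [sum_comm]; exact sum_congr rfl fun _ _ => sum_congr rfl fun _ _ => by ring
  have h4 : ∀ m, β m d c = β m c d := fun m => hβ m d c
  simp only [bar3, bar, dbar, rie, mul_sub, sub_mul, add_mul, sum_mul, mul_sum, sum_add_distrib,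
    sum_sub_distrib, h4]
  rw [hq d c a b, h1 c d, h1 d c, h2 c d, h2 d c, h3 c d, h3 d c]; ring

theorem ricC_eq_rie {β : M3 ι 𝕜} {dβ : M4 ι 𝕜} (hβ : Sy3 β) (hd : ∀ c, Sy3 (dβ c)) (i j : ι) :
    ricC β dβ i j = ∑ k, rie β dβ k i k j := by
  have h1 : ∑ k, dβ k k j i = ∑ k, dβ k k i j := sum_congr rfl fun k _ => hd k k j i
  have h2 : ∑ k, ∑ a, β k k a * β a j i = ∑ k, ∑ a, β k k a * β a i j :=
    sum_congr rfl fun k _ => sum_congr rfl fun a _ => by rw [hβ a j i]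
  simp only [ricC, cc, rie, sum_add_distrib, sum_sub_distrib]
  rw [h1, h2]; ring

theorem rie_tr {β : M3 ι 𝕜} {dβ : M4 ι 𝕜} (hβ : Sy3 β) (hd : ∀ c, Sy3 (dβ c)) (i j : ι) :
    ∑ k, rie β dβ k k i j = ricC β dβ i j - ricC β dβ j i := by
  have h1 : ∑ k, dβ k k j i = ∑ k, dβ k k i j := sum_congr rfl fun k _ => hd k k j i
  have h2 : ∑ k, ∑ a, β k k a * β a j i = ∑ k, ∑ a, β k k a * β a i j :=
    sum_congr rfl fun k _ => sum_congr rfl fun a _ => by rw [hβ a j i]
  have h3 : ∀ i j, ∑ k, dβ i k j k = ∑ k, dβ i k k j := fun i j =>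
    sum_congr rfl fun k _ => hd i k j k
  have h4 : ∑ k, ∑ a, β k i a * β a j k = ∑ k, ∑ a, β k j a * β a i k := by
    rw [sum_comm]; exact sum_congr rfl fun _ _ => sum_congr rfl fun _ _ => by ring
  have h5 : ∑ k, ∑ l, β k i l * β l k j = ∑ k, ∑ l, β k j l * β l k i := by
    rw [sum_comm]
    exact sum_congr rfl fun k _ => sum_congr rfl fun l _ => by rw [hβ l i k, hβ k l j]; ring
  simp only [ricC, cc, rie, sum_add_distrib, sum_sub_distrib]
  rw [h1, h2, h3 i j, h3 j i, h4, h5]; ring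

/-- the part of `redJ` that is linear in `TT` -/
theorem redJ_eq [CharZero 𝕜] {H : M2 ι 𝕜} (T : M3 ι 𝕜) {TT : M4 ι 𝕜} (hH : Sy2 H)
    (hTT : ∀ c, Sy3 (TT c)) (i j : ι) :
    redJ H T TT i j = -(1 / 2) * lapJ H TT i j + qd H T i j +
      (1 / 2) * ∑ k, ∑ l, H k l * (TT k i l j - TT i k l j) +
      (1 / 2) * ∑ k, ∑ l, H k l * (TT k j l i - TT j k l i) +
      (1 / 4) * ∑ k, ∑ l, H k l * (TT i j k l - TT j i k l) := by
  have h : ∀ (x a b d : 𝕜), x * (1 / 2 * (a + b - d)) = 1 / 2 * (x * a) + 1 / 2 * (x * b) -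
      1 / 2 * (x * d) := fun x a b d => by ring
  have h1 : ∑ k, ∑ l, H k l * TT k i j l = ∑ k, ∑ l, H k l * TT k i l j :=
    sum_congr rfl fun k _ => sum_congr rfl fun l _ => by rw [hTT k i j l]
  have h2 : ∑ k, ∑ l, H k l * TT k j i l = ∑ k, ∑ l, H k l * TT k j l i :=
    sum_congr rfl fun k _ => sum_congr rfl fun l _ => by rw [hTT k j i l]
  have h3 : ∑ k, ∑ l, H k l * TT j k i l = ∑ k, ∑ l, H k l * TT j l k i := by
    rw [sum_comm]
    exact sum_congr rfl fun k _ => sum_congr rfl fun l _ => by rw [hTT j l i k, hH l k]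
  have e1 : ∑ k, chr H (TT k) k i j = (1 / 2) * ∑ k, ∑ l, H k l * TT k i l j +
      (1 / 2) * ∑ k, ∑ l, H k l * TT k j l i - (1 / 2) * lapJ H TT i j := by
    simp only [chr, low, lapJ, h, sum_add_distrib, sum_sub_distrib, ← mul_sum]
    rw [h1, h2]
  have e2 : ∑ k, chr H (TT j) k k i = (1 / 2) * ∑ k, ∑ l, H k l * TT j i k l := by
    simp only [chr, low, h, sum_add_distrib, sum_sub_distrib, ← mul_sum]
    rw [h3]; ring
  have z1 : ∀ k a b, chr H (0 : M3 ι 𝕜) k a b = 0 := fun k a b => by simp [chr, low]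
  have z2 : ∀ a, gv H (0 : M3 ι 𝕜) a = 0 := fun a => by simp [gv, uT, vT, tr2]
  simp only [qd, redJ, ricJ, ricC, dchr, dgv, sum_sub_distrib, Pi.zero_apply, z1, z2, e1, e2,
    mul_sub]
  simp only [gv, uT, vT, tr2, sum_const_zero]
  ring

/-- the reduced Ricci operator has scalar principal part -/
theorem red_jet [CharZero 𝕜] {g H : M2 ι 𝕜} {p : M3 ι 𝕜} {q : M4 ι 𝕜} {β : M3 ι 𝕜}
    {dβ : M4 ι 𝕜} (hI : Iv g H) (hg : Sy2 g) (hH : Sy2 H)
    (hq : ∀ c d a b, q c d a b = q d c a b) (hβ : Sy3 β) (hd : ∀ c, Sy3 (dβ c))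
    (hTT : ∀ c, Sy3 (bar3 (bar g p β) (dbar g p q β dβ) β c)) (i j : ι) :
    ricC β dβ i j + redJ H (bar g p β) (bar3 (bar g p β) (dbar g p q β dβ) β) i j =
      -(1 / 2) * lapJ H (bar3 (bar g p β) (dbar g p q β dβ) β) i j + qd H (bar g p β) i j -
        cvJ g H (rie β dβ) i j := by
  have c1 : ∀ (f : ι → ι → 𝕜), ∑ k, ∑ l, H k l * ∑ m, f m k * g l m = ∑ k, f k k := fun f =>
    sum_congr rfl fun k _ => by
      rw [← hI.l (fun m => f m k) k]
      exact sum_congr rfl fun l _ => by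
        congr 1; exact sum_congr rfl fun m _ => by ring
  have c2 : ∀ (f : ι → ι → 𝕜), ∑ k, ∑ l, H k l * ∑ m, f m k * g m l = ∑ k, f k k := fun f => by
    rw [← c1 f]
    exact sum_congr rfl fun k _ => sum_congr rfl fun l _ => by
      congr 1; exact sum_congr rfl fun m _ => by rw [hg m l]
  have c3 : ∀ (f : ι → ι → 𝕜), ∑ k, ∑ l, H k l * ∑ m, f m l * g k m = ∑ k, f k k := fun f => by
    rw [← c1 f, sum_comm]
    exact sum_congr rfl fun k _ => sum_congr rfl fun l _ => by rw [hH l k]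
  rw [redJ_eq _ hH hTT]
  simp only [bar3_comm g p dβ hq hβ, mul_sub, mul_neg, sum_sub_distrib, sum_neg_distrib]
  rw [c1 (fun m k => rie β dβ m j k i), c1 (fun m k => rie β dβ m i k j),
    c2 (fun m k => rie β dβ m k i j), c3 (fun m l => rie β dβ m l i j),
    ← ricC_eq_rie hβ hd, ← ricC_eq_rie hβ hd, rie_tr hβ hd]
  simp only [cvJ, mul_add, sum_add_distrib, ← mul_sum]
  ring

end Crest.Agent.N207.Lg

end
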