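import Crest.Agent.N207.Lg.Alg3

/-!
# Row 207 (helper54): derivatives of the jet polynomials along curves (real or complex)
-/

set_option autoImplicit false
set_option linter.unusedSectionVars false

open Finset Filter
open scoped Topology

noncomputable section

namespace Crest.Agent.N207.Lg

variable {ι 𝕜 : Type*} [Fintype ι] [NontriviallyNormedField 𝕜] {J : Set 𝕜} {t : 𝕜}

/-- derivative of a curve of 1-arrays -/
def HD1 (J : Set 𝕜) (t : 𝕜) (u : 𝕜 → ι → 𝕜) (u' : ι → 𝕜) : Prop :=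
  ∀ i, HasDerivWithinAt (fun r => u r i) (u' i) J t
/-- derivative of a curve of 2-arrays -/
def HD2 (J : Set 𝕜) (t : 𝕜) (u : 𝕜 → M2 ι 𝕜) (u' : M2 ι 𝕜) : Prop :=
  ∀ i j, HasDerivWithinAt (fun r => u r i j) (u' i j) J t
/-- derivative of a curve of 3-arrays -/
def HD3 (J : Set 𝕜) (t : 𝕜) (u : 𝕜 → M3 ι 𝕜) (u' : M3 ι 𝕜) : Prop :=
  ∀ i j k, HasDerivWithinAt (fun r => u r i j k) (u' i j k) J t

variable {X Y H K : 𝕜 → M2 ι 𝕜} {X' Y' H' K' a b : M2 ι 𝕜} {T C D : 𝕜 → M3 ι 𝕜}
  {T' C' D' : M3 ι 𝕜} {u v : 𝕜 → ι → 𝕜} {u' v' : ι → 𝕜} {s : 𝕜 → 𝕜}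

theorem hd2_const (A : M2 ι 𝕜) : HD2 J t (fun _ => A) 0 := fun _ _ => hasDerivWithinAt_const _ _ _

theorem hd3_const (A : M3 ι 𝕜) : HD3 J t (fun _ => A) 0 := fun _ _ _ => hasDerivWithinAt_const _ _ _

theorem hd_tr2 (hX : HD2 J t X X') (hY : HD2 J t Y Y') :
    HasDerivWithinAt (fun r => tr2 (X r) (Y r)) (tr2 X' (Y t) + tr2 (X t) Y') J t := by
  simp only [tr2, ← sum_add_distrib]
  exact .fun_sum fun i _ => .fun_sum fun j _ => (hX i j).fun_mul (hY i j)

theorem hd_low (hT : HD3 J t T T') : HD3 J t (fun r => low (T r)) (low T') := fun m i j =>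
  (((hT i j m).fun_add (hT j i m)).fun_sub (hT m i j)).const_mul _

theorem hd_chr (hH : HD2 J t H H') (hT : HD3 J t T T') :
    HD3 J t (fun r => chr (H r) (T r)) (chr H' (T t) + chr (H t) T') := fun k i j => by
  simp only [chr, Pi.add_apply, ← sum_add_distrib]
  exact .fun_sum fun l _ => (hH k l).fun_mul (hd_low hT l i j)

theorem hd_gv (hH : HD2 J t H H') (hT : HD3 J t T T') :
    HD1 J t (fun r => gv (H r) (T r)) (gv H' (T t) + gv (H t) T') := fun j => by
  have h1 : HasDerivWithinAt (fun r => uT (H r) (T r) j) (uT H' (T t) j + uT (H t) T' j) J t := by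
    simp only [uT, ← sum_add_distrib]
    exact .fun_sum fun c _ => .fun_sum fun a _ => (hH c a).fun_mul (hT c a j)
  have h2 := hd_tr2 hH (Y := fun r => T r j) (hT j)
  refine (h1.fun_sub (h2.const_mul (1 / 2))).congr_deriv ?_
  simp only [gv, vT, Pi.add_apply]; ring

theorem hd_cc (hC : HD3 J t C C') (hD : HD3 J t D D') :
    HD2 J t (fun r => cc (C r) (D r)) (cc C' (D t) + cc (C t) D') := fun i j => by
  refine ((HasDerivWithinAt.fun_sum fun k _ => HasDerivWithinAt.fun_sum fun l _ =>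
    (hC k j l).fun_mul (hD l k i)).fun_sub (HasDerivWithinAt.fun_sum fun k _ =>
      HasDerivWithinAt.fun_sum fun l _ => (hC k k l).fun_mul (hD l i j))).congr_deriv ?_
  simp only [cc, Pi.add_apply, sum_add_distrib]; ring

theorem hd_fl (hX : HD2 J t X X') (hC : HD3 J t C C') :
    HD1 J t (fun r => fl (X r) (C r)) (fl X' (C t) + fl (X t) C') := fun c => by
  refine ((HasDerivWithinAt.fun_sum fun i _ => HasDerivWithinAt.fun_sum fun j _ =>
    (hX i j).fun_mul (hC c i j)).fun_sub (HasDerivWithinAt.fun_sum fun i _ =>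
      HasDerivWithinAt.fun_sum fun j _ => (hX i c).fun_mul (hC j j i))).congr_deriv ?_
  simp only [fl, Pi.add_apply, sum_add_distrib]; ring

theorem hd_ip1 (hX : HD2 J t X X') (hu : HD1 J t u u') (hv : HD1 J t v v') :
    HasDerivWithinAt (fun r => ip1 (X r) (u r) (v r))
      (ip1 X' (u t) (v t) + (ip1 (X t) u' (v t) + ip1 (X t) (u t) v')) J t := by
  refine (HasDerivWithinAt.fun_sum fun i _ => HasDerivWithinAt.fun_sum fun j _ =>
    (hX i j).fun_mul ((hu i).fun_mul (hv j))).congr_deriv ?_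
  simp only [ip1, mul_add, sum_add_distrib]

theorem hd_up (hH : HD2 J t H H') (hK : HD2 J t K K') :
    HD2 J t (fun r => up (H r) (K r)) fun i j => ∑ x, ∑ y, H' i x * K t x y * H t y j +
      up (H t) K' i j + ∑ x, ∑ y, H t i x * K t x y * H' y j := fun i j => by
  refine (HasDerivWithinAt.fun_sum fun x _ => HasDerivWithinAt.fun_sum fun y _ =>
    ((hH i x).fun_mul (hK x y)).fun_mul (hH y j)).congr_deriv ?_
  simp only [up, add_mul, sum_add_distrib]

theorem hd_bar (hX : HD2 J t X X') (hT : HD3 J t T T') (hC : HD3 J t C C') :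
    HD3 J t (fun r => bar (X r) (T r) (C r)) fun d x y => T' d x y -
      ∑ m, (C' m d x * X t m y + C t m d x * X' m y) -
      ∑ m, (C' m d y * X t x m + C t m d y * X' x m) := fun d x y =>
  ((hT d x y).fun_sub (.fun_sum fun m _ => (hC m d x).fun_mul (hX m y))).fun_sub
    (.fun_sum fun m _ => (hC m d y).fun_mul (hX x m))

theorem chr_neg (A : M2 ι 𝕜) (T : M3 ι 𝕜) : chr (-A) T = -chr A T := by
  funext k i j; simp only [chr, Pi.neg_apply, neg_mul, sum_neg_distrib]

theorem gv_neg (A : M2 ι 𝕜) (T : M3 ι 𝕜) : gv (-A) T = -gv A T := by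
  funext j
  simp only [gv, uT, vT, tr2, Pi.neg_apply, neg_mul, sum_neg_distrib]; ring

theorem neg_tr2 (A B : M2 ι 𝕜) : tr2 (-A) B = -tr2 A B := by
  simp only [tr2, Pi.neg_apply, neg_mul, sum_neg_distrib]

theorem hd_dchr (hH : HD2 J t H (-up (H t) a)) (hT : HD3 J t T T') :
    HD3 J t (fun r => chr (H r) (T r)) (dchr (H t) (T t) a T') := fun k i j =>
  (hd_chr hH hT k i j).congr_deriv (by simp only [chr_neg, dchr, Pi.add_apply, Pi.neg_apply]; ring)

theorem hd_dgv (hH : HD2 J t H (-up (H t) a)) (hT : HD3 J t T T') :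
    HD1 J t (fun r => gv (H r) (T r)) (dgv (H t) (T t) a T') := fun j =>
  (hd_gv hH hT j).congr_deriv (by simp only [gv_neg, dgv, Pi.add_apply, Pi.neg_apply]; ring)

theorem hd_sH (hs : HasDerivWithinAt s ((1 / 2) * s t * tr2 (H t) a) J t)
    (hH : HD2 J t H (-up (H t) a)) : HD2 J t (fun r => s r • H r) (vG (s t) (H t) a) := fun i j =>
  (hs.fun_mul (hH i j)).congr_deriv (by simp only [vG, Pi.neg_apply]; ring)

theorem hd_vG (hs : HasDerivWithinAt s ((1 / 2) * s t * tr2 (H t) a) J t)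
    (hH : HD2 J t H (-up (H t) a)) (hK : HD2 J t K b) :
    HD2 J t (fun r => vG (s r) (H r) (K r)) (dvG (s t) (H t) (K t) a b) := fun i j => by
  refine (hs.fun_mul ((((hd_tr2 hH hK).const_mul (1 / 2)).fun_mul (hH i j)).fun_sub
    (hd_up hH hK i j))).congr_deriv ?_
  simp only [dvG, vG, neg_tr2, Pi.neg_apply, neg_mul, mul_neg, sum_neg_distrib]; ring

theorem hd_lag (ρ : M2 ι 𝕜) (hs : HasDerivWithinAt s ((1 / 2) * s t * tr2 (H t) a) J t)
    (hH : HD2 J t H (-up (H t) a)) (hT : HD3 J t T T') :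
    HasDerivWithinAt (fun r => lag (s r) (H r) (T r) ρ) (dlag (s t) (H t) (T t) ρ a T') J t := by
  have h1 := hd_sH hs hH
  have h2 := hd_dchr hH hT
  have h := (hd_tr2 h1 (hd2_const ρ)).fun_add (hd_tr2 h1 (hd_cc h2 h2))
  simp only [smul_tr2, ← mul_add] at h
  refine h.congr_deriv ?_
  have z : tr2 (H t) 0 = 0 := by simp [tr2]
  simp only [dlag, tr2_add, z]; ring

theorem hd_gau (hs : HasDerivWithinAt s ((1 / 2) * s t * tr2 (H t) a) J t)
    (hH : HD2 J t H (-up (H t) a)) (hT : HD3 J t T T') :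
    HasDerivWithinAt (fun r => gau (s r) (H r) (T r)) (dgau (s t) (H t) (T t) a T') J t := by
  have h2 := hd_dgv hH hT
  have h := (hd_ip1 (hd_sH hs hH) h2 h2).const_mul (1 / 2)
  simp only [ip1_smul, ← mul_assoc] at h
  refine h.congr_deriv ?_
  simp only [dgau]; ring

theorem hd_fgf (ρ : M2 ι 𝕜) (hs : HasDerivWithinAt s ((1 / 2) * s t * tr2 (H t) a) J t)
    (hH : HD2 J t H (-up (H t) a)) (hT : HD3 J t T T') :
    HasDerivWithinAt (fun r => fgf (s r) (H r) (T r) ρ) (dfgf (s t) (H t) (T t) ρ a T') J t :=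
  (hd_lag ρ hs hH hT).fun_sub (hd_gau hs hH hT)

section Det

variable [DecidableEq ι] {A : 𝕜 → Matrix ι ι 𝕜}

/-- Jacobi's formula -/
theorem hd_det (hA : HD2 J t A a) :
    HasDerivWithinAt (fun r => (A r).det) (∑ i, ∑ j, (A t).adjugate i j * a j i) J t := by
  have e : ∀ (B : Matrix ι ι 𝕜) (i : ι) (w : ι → 𝕜),
      ∑ j, B.adjugate i j * w j = (B.updateCol i w).det := fun B i w => by
    rw [← Matrix.cramer_apply, Matrix.cramer_eq_adjugate_mulVec]; rfl
  simp only [Matrix.det_apply']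
  refine (HasDerivWithinAt.fun_sum fun σ _ =>
    (HasDerivWithinAt.fun_finsetProd fun i _ => hA (σ i) i).const_mul _).congr_deriv ?_
  simp only [e (A t) _ (fun j => a j _), Matrix.det_apply', smul_eq_mul]
  rw [sum_comm]
  refine sum_congr rfl fun σ _ => ?_
  rw [mul_sum]
  refine sum_congr rfl fun i _ => ?_
  congr 1
  rw [← mul_prod_erase univ _ (mem_univ i)]
  simp only [Matrix.updateCol_self]
  rw [mul_comm]
  congr 1
  refine prod_congr rfl fun j hj => ?_
  rw [Matrix.updateCol_ne (ne_of_mem_erase hj)]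

theorem hd_det' (hA : HD2 J t A a) (ha : Sy2 a) (hd : (A t).det ≠ 0) :
    HasDerivWithinAt (fun r => (A r).det) ((A t).det * tr2 (fun i j => (A t)⁻¹ i j) a) J t := by
  refine (hd_det hA).congr_deriv ?_
  simp only [tr2, mul_sum, Matrix.inv_def, Matrix.smul_apply, smul_eq_mul, Ring.inverse_eq_inv']
  refine sum_congr rfl fun i _ => sum_congr rfl fun j _ => ?_
  rw [ha j i]; field_simp

theorem hd_inv (hA : HD2 J t A a) (hd : (A t).det ≠ 0) :
    HD2 J t (fun r i j => (A r)⁻¹ i j) (-up (fun i j => (A t)⁻¹ i j) a) := by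
  have hc : ContinuousWithinAt (fun r => (A r).det) J t := (hd_det hA).continuousWithinAt
  have hev : ∀ᶠ r in 𝓝[J] t, (A r).det ≠ 0 := hc.eventually_ne hd
  -- `(A r)⁻¹ = H - H (A r - A t) (A r)⁻¹`
  have hcont : ∀ i j, ContinuousWithinAt (fun r => (A r)⁻¹ i j) J t := fun i j => by
    have e : (fun r => (A r)⁻¹ i j) = fun r => ((A r).det)⁻¹ *
        ((A r).updateRow j (Pi.single i 1)).det := by
      funext r
      simp only [Matrix.inv_def, Matrix.smul_apply, smul_eq_mul, Ring.inverse_eq_inv',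
        Matrix.adjugate_apply]
    rw [e]
    refine (hc.inv₀ hd).mul (hd_det (A := fun r => (A r).updateRow j (Pi.single i 1))
      (a := Matrix.updateRow (Matrix.of a) j 0) fun x y => ?_).continuousWithinAt
    by_cases hx : x = j
    · subst hx; simpa using hasDerivWithinAt_const _ _ _
    · simpa [Matrix.updateRow_ne hx] using hA x y
  intro i j
  have e1 : ∀ r, (A r).det ≠ 0 → (A r)⁻¹ i j =
      (A t)⁻¹ i j - ∑ x, ∑ y, (A t)⁻¹ i x * ((A r x y - A t x y) * (A r)⁻¹ y j) := fun r hr => by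
    have h1 : (A t)⁻¹ * ((A r - A t) * (A r)⁻¹) = (A t)⁻¹ - (A r)⁻¹ := by
      rw [Matrix.sub_mul, Matrix.mul_nonsing_inv _ (isUnit_iff_ne_zero.2 hr), Matrix.mul_sub,
        Matrix.mul_one, ← Matrix.mul_assoc, Matrix.nonsing_inv_mul _ (isUnit_iff_ne_zero.2 hd),
        Matrix.one_mul]
    have h2 := congrFun (congrFun h1 i) j
    simp only [Matrix.mul_apply, Matrix.sub_apply, mul_sum] at h2
    rw [h2]; ring
  have h3 : ∀ x y, HasDerivWithinAt (fun r => (A r x y - A t x y) * (A r)⁻¹ y j)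
      (a x y * (A t)⁻¹ y j) J t := fun x y => by
    have h4 := hA x y
    rw [hasDerivWithinAt_iff_tendsto_slope] at h4 ⊢
    refine (h4.mul ((hcont y j).tendsto.mono_left (nhdsWithin_mono _ Set.sdiff_subset))).congr
      fun r => ?_
    simp only [slope_def_field, sub_self, zero_mul, sub_zero]; ring
  refine ((HasDerivWithinAt.fun_sum fun x _ => HasDerivWithinAt.fun_sum fun y _ =>
    (h3 x y).const_mul ((A t)⁻¹ i x)).const_sub ((A t)⁻¹ i j)).congr_of_eventuallyEq
      (hev.mono e1) (e1 t hd) |>.congr_deriv ?_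
  simp only [up, Pi.neg_apply, mul_assoc]

end Det

end Crest.Agent.N207.Lg

end
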