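import Crest.Agent.N207.Lg.Cal

/-!
# Row 207 (helper54): smoothness of the jet polynomials (`m = ω`: analyticity)
-/

set_option autoImplicit false
set_option linter.unusedSectionVars false

noncomputable section

namespace Crest.Agent.N207.Lg

variable {ι 𝕜 P : Type*} [Fintype ι] [NontriviallyNormedField 𝕜] [NormedAddCommGroup P]
  [NormedSpace 𝕜 P] {x : P} {m : WithTop ℕ∞} {S : Set P}
  {s : P → 𝕜} {u v : P → ι → 𝕜} {g H k ρ : P → M2 ι 𝕜} {T τ β : P → M3 ι 𝕜} {Q R : P → M4 ι 𝕜}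

@[fun_prop] theorem dA_low (hT : DifferentiableAt 𝕜 T x) :
    DifferentiableAt 𝕜 (fun z => low (T z)) x := by
  unfold low; fun_prop

@[fun_prop] theorem dA_chr (hH : DifferentiableAt 𝕜 H x) (hT : DifferentiableAt 𝕜 T x) :
    DifferentiableAt 𝕜 (fun z => chr (H z) (T z)) x := by
  unfold chr; fun_prop

@[fun_prop] theorem dA_bar (hg : DifferentiableAt 𝕜 g x) (hT : DifferentiableAt 𝕜 T x) (hβ : DifferentiableAt 𝕜 β x) :
    DifferentiableAt 𝕜 (fun z => bar (g z) (T z) (β z)) x := by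
  unfold bar; fun_prop

@[fun_prop] theorem dA_tr2 (hH : DifferentiableAt 𝕜 H x) (hk : DifferentiableAt 𝕜 k x) :
    DifferentiableAt 𝕜 (fun z => tr2 (H z) (k z)) x := by
  unfold tr2; fun_prop

@[fun_prop] theorem dA_up (hH : DifferentiableAt 𝕜 H x) (hk : DifferentiableAt 𝕜 k x) :
    DifferentiableAt 𝕜 (fun z => up (H z) (k z)) x := by
  unfold up; fun_prop

@[fun_prop] theorem dA_uT (hH : DifferentiableAt 𝕜 H x) (hT : DifferentiableAt 𝕜 T x) :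
    DifferentiableAt 𝕜 (fun z => uT (H z) (T z)) x := by
  unfold uT; fun_prop

@[fun_prop] theorem dA_vT (hH : DifferentiableAt 𝕜 H x) (hT : DifferentiableAt 𝕜 T x) :
    DifferentiableAt 𝕜 (fun z => vT (H z) (T z)) x := by
  unfold vT; fun_prop

@[fun_prop] theorem dA_gv (hH : DifferentiableAt 𝕜 H x) (hT : DifferentiableAt 𝕜 T x) :
    DifferentiableAt 𝕜 (fun z => gv (H z) (T z)) x := by
  unfold gv; fun_prop

@[fun_prop] theorem dA_cc (hT : DifferentiableAt 𝕜 T x) (hτ : DifferentiableAt 𝕜 τ x) :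
    DifferentiableAt 𝕜 (fun z => cc (T z) (τ z)) x := by
  unfold cc; fun_prop

@[fun_prop] theorem dA_ell (hH : DifferentiableAt 𝕜 H x) (hT : DifferentiableAt 𝕜 T x) :
    DifferentiableAt 𝕜 (fun z => ell (H z) (T z)) x := by
  unfold ell; fun_prop

@[fun_prop] theorem dA_lag (hs : DifferentiableAt 𝕜 s x) (hH : DifferentiableAt 𝕜 H x) (hT : DifferentiableAt 𝕜 T x) (hρ : DifferentiableAt 𝕜 ρ x) :
    DifferentiableAt 𝕜 (fun z => lag (s z) (H z) (T z) (ρ z)) x := by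
  unfold lag; fun_prop

@[fun_prop] theorem dA_ip1 (hH : DifferentiableAt 𝕜 H x) (hu : DifferentiableAt 𝕜 u x) (hv : DifferentiableAt 𝕜 v x) :
    DifferentiableAt 𝕜 (fun z => ip1 (H z) (u z) (v z)) x := by
  unfold ip1; fun_prop

@[fun_prop] theorem dA_gau (hs : DifferentiableAt 𝕜 s x) (hH : DifferentiableAt 𝕜 H x) (hT : DifferentiableAt 𝕜 T x) :
    DifferentiableAt 𝕜 (fun z => gau (s z) (H z) (T z)) x := by
  unfold gau; fun_prop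

@[fun_prop] theorem dA_fgf (hs : DifferentiableAt 𝕜 s x) (hH : DifferentiableAt 𝕜 H x) (hT : DifferentiableAt 𝕜 T x) (hρ : DifferentiableAt 𝕜 ρ x) :
    DifferentiableAt 𝕜 (fun z => fgf (s z) (H z) (T z) (ρ z)) x := by
  unfold fgf; fun_prop

@[fun_prop] theorem dA_vG (hs : DifferentiableAt 𝕜 s x) (hH : DifferentiableAt 𝕜 H x) (hk : DifferentiableAt 𝕜 k x) :
    DifferentiableAt 𝕜 (fun z => vG (s z) (H z) (k z)) x := by
  unfold vG; fun_prop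

@[fun_prop] theorem dA_fl (hH : DifferentiableAt 𝕜 H x) (hT : DifferentiableAt 𝕜 T x) :
    DifferentiableAt 𝕜 (fun z => fl (H z) (T z)) x := by
  unfold fl; fun_prop

@[fun_prop] theorem dA_flux (hs : DifferentiableAt 𝕜 s x) (hH : DifferentiableAt 𝕜 H x) (hT : DifferentiableAt 𝕜 T x) :
    DifferentiableAt 𝕜 (fun z => flux (s z) (H z) (T z)) x := by
  unfold flux; fun_prop

@[fun_prop] theorem dA_wL (hs : DifferentiableAt 𝕜 s x) (hH : DifferentiableAt 𝕜 H x) (hT : DifferentiableAt 𝕜 T x) (hk : DifferentiableAt 𝕜 k x) :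
    DifferentiableAt 𝕜 (fun z => wL (s z) (H z) (T z) (k z)) x := by
  unfold wL; fun_prop

@[fun_prop] theorem dA_wF (hs : DifferentiableAt 𝕜 s x) (hH : DifferentiableAt 𝕜 H x) (hT : DifferentiableAt 𝕜 T x) (hk : DifferentiableAt 𝕜 k x) :
    DifferentiableAt 𝕜 (fun z => wF (s z) (H z) (T z) (k z)) x := by
  unfold wF; fun_prop

@[fun_prop] theorem dA_dchr (hH : DifferentiableAt 𝕜 H x) (hT : DifferentiableAt 𝕜 T x) (hk : DifferentiableAt 𝕜 k x) (hτ : DifferentiableAt 𝕜 τ x) :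
    DifferentiableAt 𝕜 (fun z => dchr (H z) (T z) (k z) (τ z)) x := by
  unfold dchr; fun_prop

@[fun_prop] theorem dA_dgv (hH : DifferentiableAt 𝕜 H x) (hT : DifferentiableAt 𝕜 T x) (hk : DifferentiableAt 𝕜 k x) (hτ : DifferentiableAt 𝕜 τ x) :
    DifferentiableAt 𝕜 (fun z => dgv (H z) (T z) (k z) (τ z)) x := by
  unfold dgv; fun_prop

@[fun_prop] theorem dA_dlag (hs : DifferentiableAt 𝕜 s x) (hH : DifferentiableAt 𝕜 H x) (hT : DifferentiableAt 𝕜 T x) (hρ : DifferentiableAt 𝕜 ρ x) (hk : DifferentiableAt 𝕜 k x) (hτ : DifferentiableAt 𝕜 τ x) :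
    DifferentiableAt 𝕜 (fun z => dlag (s z) (H z) (T z) (ρ z) (k z) (τ z)) x := by
  unfold dlag; fun_prop

@[fun_prop] theorem dA_dgau (hs : DifferentiableAt 𝕜 s x) (hH : DifferentiableAt 𝕜 H x) (hT : DifferentiableAt 𝕜 T x) (hk : DifferentiableAt 𝕜 k x) (hτ : DifferentiableAt 𝕜 τ x) :
    DifferentiableAt 𝕜 (fun z => dgau (s z) (H z) (T z) (k z) (τ z)) x := by
  unfold dgau; fun_prop

@[fun_prop] theorem dA_dfgf (hs : DifferentiableAt 𝕜 s x) (hH : DifferentiableAt 𝕜 H x) (hT : DifferentiableAt 𝕜 T x) (hρ : DifferentiableAt 𝕜 ρ x) (hk : DifferentiableAt 𝕜 k x) (hτ : DifferentiableAt 𝕜 τ x) :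
    DifferentiableAt 𝕜 (fun z => dfgf (s z) (H z) (T z) (ρ z) (k z) (τ z)) x := by
  unfold dfgf; fun_prop

@[fun_prop] theorem dA_ricC (hT : DifferentiableAt 𝕜 T x) (hQ : DifferentiableAt 𝕜 Q x) :
    DifferentiableAt 𝕜 (fun z => ricC (T z) (Q z)) x := by
  unfold ricC; fun_prop

@[fun_prop] theorem dA_ricJ (hH : DifferentiableAt 𝕜 H x) (hT : DifferentiableAt 𝕜 T x) (hQ : DifferentiableAt 𝕜 Q x) :
    DifferentiableAt 𝕜 (fun z => ricJ (H z) (T z) (Q z)) x := by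
  unfold ricJ; fun_prop

@[fun_prop] theorem dA_redJ (hH : DifferentiableAt 𝕜 H x) (hT : DifferentiableAt 𝕜 T x) (hQ : DifferentiableAt 𝕜 Q x) :
    DifferentiableAt 𝕜 (fun z => redJ (H z) (T z) (Q z)) x := by
  unfold redJ; fun_prop

@[fun_prop] theorem dA_qd (hH : DifferentiableAt 𝕜 H x) (hT : DifferentiableAt 𝕜 T x) :
    DifferentiableAt 𝕜 (fun z => qd (H z) (T z)) x := by
  unfold qd; fun_prop

@[fun_prop] theorem dA_lapJ (hH : DifferentiableAt 𝕜 H x) (hQ : DifferentiableAt 𝕜 Q x) :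
    DifferentiableAt 𝕜 (fun z => lapJ (H z) (Q z)) x := by
  unfold lapJ; fun_prop

@[fun_prop] theorem dA_bar3 (hT : DifferentiableAt 𝕜 T x) (hQ : DifferentiableAt 𝕜 Q x) (hβ : DifferentiableAt 𝕜 β x) :
    DifferentiableAt 𝕜 (fun z => bar3 (T z) (Q z) (β z)) x := by
  unfold bar3; fun_prop

@[fun_prop] theorem dA_rie (hβ : DifferentiableAt 𝕜 β x) (hQ : DifferentiableAt 𝕜 Q x) :
    DifferentiableAt 𝕜 (fun z => rie (β z) (Q z)) x := by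
  unfold rie; fun_prop

@[fun_prop] theorem dA_dbar (hg : DifferentiableAt 𝕜 g x) (hT : DifferentiableAt 𝕜 T x) (hQ : DifferentiableAt 𝕜 Q x) (hβ : DifferentiableAt 𝕜 β x) (hR : DifferentiableAt 𝕜 R x) :
    DifferentiableAt 𝕜 (fun z => dbar (g z) (T z) (Q z) (β z) (R z)) x := by
  unfold dbar; fun_prop

@[fun_prop] theorem dA_cvJ (hg : DifferentiableAt 𝕜 g x) (hH : DifferentiableAt 𝕜 H x) (hR : DifferentiableAt 𝕜 R x) :
    DifferentiableAt 𝕜 (fun z => cvJ (g z) (H z) (R z)) x := by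
  unfold cvJ; fun_prop

@[fun_prop] theorem cA_low (hT : ContDiffAt 𝕜 m T x) :
    ContDiffAt 𝕜 m (fun z => low (T z)) x := by
  unfold low; fun_prop

@[fun_prop] theorem cA_chr (hH : ContDiffAt 𝕜 m H x) (hT : ContDiffAt 𝕜 m T x) :
    ContDiffAt 𝕜 m (fun z => chr (H z) (T z)) x := by
  unfold chr; fun_prop

@[fun_prop] theorem cA_bar (hg : ContDiffAt 𝕜 m g x) (hT : ContDiffAt 𝕜 m T x) (hβ : ContDiffAt 𝕜 m β x) :
    ContDiffAt 𝕜 m (fun z => bar (g z) (T z) (β z)) x := by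
  unfold bar; fun_prop

@[fun_prop] theorem cA_tr2 (hH : ContDiffAt 𝕜 m H x) (hk : ContDiffAt 𝕜 m k x) :
    ContDiffAt 𝕜 m (fun z => tr2 (H z) (k z)) x := by
  unfold tr2; fun_prop

@[fun_prop] theorem cA_up (hH : ContDiffAt 𝕜 m H x) (hk : ContDiffAt 𝕜 m k x) :
    ContDiffAt 𝕜 m (fun z => up (H z) (k z)) x := by
  unfold up; fun_prop

@[fun_prop] theorem cA_uT (hH : ContDiffAt 𝕜 m H x) (hT : ContDiffAt 𝕜 m T x) :
    ContDiffAt 𝕜 m (fun z => uT (H z) (T z)) x := by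
  unfold uT; fun_prop

@[fun_prop] theorem cA_vT (hH : ContDiffAt 𝕜 m H x) (hT : ContDiffAt 𝕜 m T x) :
    ContDiffAt 𝕜 m (fun z => vT (H z) (T z)) x := by
  unfold vT; fun_prop

@[fun_prop] theorem cA_gv (hH : ContDiffAt 𝕜 m H x) (hT : ContDiffAt 𝕜 m T x) :
    ContDiffAt 𝕜 m (fun z => gv (H z) (T z)) x := by
  unfold gv; fun_prop

@[fun_prop] theorem cA_cc (hT : ContDiffAt 𝕜 m T x) (hτ : ContDiffAt 𝕜 m τ x) :
    ContDiffAt 𝕜 m (fun z => cc (T z) (τ z)) x := by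
  unfold cc; fun_prop

@[fun_prop] theorem cA_ell (hH : ContDiffAt 𝕜 m H x) (hT : ContDiffAt 𝕜 m T x) :
    ContDiffAt 𝕜 m (fun z => ell (H z) (T z)) x := by
  unfold ell; fun_prop

@[fun_prop] theorem cA_lag (hs : ContDiffAt 𝕜 m s x) (hH : ContDiffAt 𝕜 m H x) (hT : ContDiffAt 𝕜 m T x) (hρ : ContDiffAt 𝕜 m ρ x) :
    ContDiffAt 𝕜 m (fun z => lag (s z) (H z) (T z) (ρ z)) x := by
  unfold lag; fun_prop

@[fun_prop] theorem cA_ip1 (hH : ContDiffAt 𝕜 m H x) (hu : ContDiffAt 𝕜 m u x) (hv : ContDiffAt 𝕜 m v x) :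
    ContDiffAt 𝕜 m (fun z => ip1 (H z) (u z) (v z)) x := by
  unfold ip1; fun_prop

@[fun_prop] theorem cA_gau (hs : ContDiffAt 𝕜 m s x) (hH : ContDiffAt 𝕜 m H x) (hT : ContDiffAt 𝕜 m T x) :
    ContDiffAt 𝕜 m (fun z => gau (s z) (H z) (T z)) x := by
  unfold gau; fun_prop

@[fun_prop] theorem cA_fgf (hs : ContDiffAt 𝕜 m s x) (hH : ContDiffAt 𝕜 m H x) (hT : ContDiffAt 𝕜 m T x) (hρ : ContDiffAt 𝕜 m ρ x) :
    ContDiffAt 𝕜 m (fun z => fgf (s z) (H z) (T z) (ρ z)) x := by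
  unfold fgf; fun_prop

@[fun_prop] theorem cA_vG (hs : ContDiffAt 𝕜 m s x) (hH : ContDiffAt 𝕜 m H x) (hk : ContDiffAt 𝕜 m k x) :
    ContDiffAt 𝕜 m (fun z => vG (s z) (H z) (k z)) x := by
  unfold vG; fun_prop

@[fun_prop] theorem cA_fl (hH : ContDiffAt 𝕜 m H x) (hT : ContDiffAt 𝕜 m T x) :
    ContDiffAt 𝕜 m (fun z => fl (H z) (T z)) x := by
  unfold fl; fun_prop

@[fun_prop] theorem cA_flux (hs : ContDiffAt 𝕜 m s x) (hH : ContDiffAt 𝕜 m H x) (hT : ContDiffAt 𝕜 m T x) :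
    ContDiffAt 𝕜 m (fun z => flux (s z) (H z) (T z)) x := by
  unfold flux; fun_prop

@[fun_prop] theorem cA_wL (hs : ContDiffAt 𝕜 m s x) (hH : ContDiffAt 𝕜 m H x) (hT : ContDiffAt 𝕜 m T x) (hk : ContDiffAt 𝕜 m k x) :
    ContDiffAt 𝕜 m (fun z => wL (s z) (H z) (T z) (k z)) x := by
  unfold wL; fun_prop

@[fun_prop] theorem cA_wF (hs : ContDiffAt 𝕜 m s x) (hH : ContDiffAt 𝕜 m H x) (hT : ContDiffAt 𝕜 m T x) (hk : ContDiffAt 𝕜 m k x) :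
    ContDiffAt 𝕜 m (fun z => wF (s z) (H z) (T z) (k z)) x := by
  unfold wF; fun_prop

@[fun_prop] theorem cA_dchr (hH : ContDiffAt 𝕜 m H x) (hT : ContDiffAt 𝕜 m T x) (hk : ContDiffAt 𝕜 m k x) (hτ : ContDiffAt 𝕜 m τ x) :
    ContDiffAt 𝕜 m (fun z => dchr (H z) (T z) (k z) (τ z)) x := by
  unfold dchr; fun_prop

@[fun_prop] theorem cA_dgv (hH : ContDiffAt 𝕜 m H x) (hT : ContDiffAt 𝕜 m T x) (hk : ContDiffAt 𝕜 m k x) (hτ : ContDiffAt 𝕜 m τ x) :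
    ContDiffAt 𝕜 m (fun z => dgv (H z) (T z) (k z) (τ z)) x := by
  unfold dgv; fun_prop

@[fun_prop] theorem cA_dlag (hs : ContDiffAt 𝕜 m s x) (hH : ContDiffAt 𝕜 m H x) (hT : ContDiffAt 𝕜 m T x) (hρ : ContDiffAt 𝕜 m ρ x) (hk : ContDiffAt 𝕜 m k x) (hτ : ContDiffAt 𝕜 m τ x) :
    ContDiffAt 𝕜 m (fun z => dlag (s z) (H z) (T z) (ρ z) (k z) (τ z)) x := by
  unfold dlag; fun_prop

@[fun_prop] theorem cA_dgau (hs : ContDiffAt 𝕜 m s x) (hH : ContDiffAt 𝕜 m H x) (hT : ContDiffAt 𝕜 m T x) (hk : ContDiffAt 𝕜 m k x) (hτ : ContDiffAt 𝕜 m τ x) :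
    ContDiffAt 𝕜 m (fun z => dgau (s z) (H z) (T z) (k z) (τ z)) x := by
  unfold dgau; fun_prop

@[fun_prop] theorem cA_dfgf (hs : ContDiffAt 𝕜 m s x) (hH : ContDiffAt 𝕜 m H x) (hT : ContDiffAt 𝕜 m T x) (hρ : ContDiffAt 𝕜 m ρ x) (hk : ContDiffAt 𝕜 m k x) (hτ : ContDiffAt 𝕜 m τ x) :
    ContDiffAt 𝕜 m (fun z => dfgf (s z) (H z) (T z) (ρ z) (k z) (τ z)) x := by
  unfold dfgf; fun_prop

@[fun_prop] theorem cA_ricC (hT : ContDiffAt 𝕜 m T x) (hQ : ContDiffAt 𝕜 m Q x) :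
    ContDiffAt 𝕜 m (fun z => ricC (T z) (Q z)) x := by
  unfold ricC; fun_prop

@[fun_prop] theorem cA_ricJ (hH : ContDiffAt 𝕜 m H x) (hT : ContDiffAt 𝕜 m T x) (hQ : ContDiffAt 𝕜 m Q x) :
    ContDiffAt 𝕜 m (fun z => ricJ (H z) (T z) (Q z)) x := by
  unfold ricJ; fun_prop

@[fun_prop] theorem cA_redJ (hH : ContDiffAt 𝕜 m H x) (hT : ContDiffAt 𝕜 m T x) (hQ : ContDiffAt 𝕜 m Q x) :
    ContDiffAt 𝕜 m (fun z => redJ (H z) (T z) (Q z)) x := by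
  unfold redJ; fun_prop

@[fun_prop] theorem cA_qd (hH : ContDiffAt 𝕜 m H x) (hT : ContDiffAt 𝕜 m T x) :
    ContDiffAt 𝕜 m (fun z => qd (H z) (T z)) x := by
  unfold qd; fun_prop

@[fun_prop] theorem cA_lapJ (hH : ContDiffAt 𝕜 m H x) (hQ : ContDiffAt 𝕜 m Q x) :
    ContDiffAt 𝕜 m (fun z => lapJ (H z) (Q z)) x := by
  unfold lapJ; fun_prop

@[fun_prop] theorem cA_bar3 (hT : ContDiffAt 𝕜 m T x) (hQ : ContDiffAt 𝕜 m Q x) (hβ : ContDiffAt 𝕜 m β x) :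
    ContDiffAt 𝕜 m (fun z => bar3 (T z) (Q z) (β z)) x := by
  unfold bar3; fun_prop

@[fun_prop] theorem cA_rie (hβ : ContDiffAt 𝕜 m β x) (hQ : ContDiffAt 𝕜 m Q x) :
    ContDiffAt 𝕜 m (fun z => rie (β z) (Q z)) x := by
  unfold rie; fun_prop

@[fun_prop] theorem cA_dbar (hg : ContDiffAt 𝕜 m g x) (hT : ContDiffAt 𝕜 m T x) (hQ : ContDiffAt 𝕜 m Q x) (hβ : ContDiffAt 𝕜 m β x) (hR : ContDiffAt 𝕜 m R x) :
    ContDiffAt 𝕜 m (fun z => dbar (g z) (T z) (Q z) (β z) (R z)) x := by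
  unfold dbar; fun_prop

@[fun_prop] theorem cA_cvJ (hg : ContDiffAt 𝕜 m g x) (hH : ContDiffAt 𝕜 m H x) (hR : ContDiffAt 𝕜 m R x) :
    ContDiffAt 𝕜 m (fun z => cvJ (g z) (H z) (R z)) x := by
  unfold cvJ; fun_prop

@[fun_prop] theorem cO_low (hT : ContDiffOn 𝕜 m T S) :
    ContDiffOn 𝕜 m (fun z => low (T z)) S := by
  unfold low; fun_prop

@[fun_prop] theorem cO_chr (hH : ContDiffOn 𝕜 m H S) (hT : ContDiffOn 𝕜 m T S) :
    ContDiffOn 𝕜 m (fun z => chr (H z) (T z)) S := by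
  unfold chr; fun_prop

@[fun_prop] theorem cO_bar (hg : ContDiffOn 𝕜 m g S) (hT : ContDiffOn 𝕜 m T S) (hβ : ContDiffOn 𝕜 m β S) :
    ContDiffOn 𝕜 m (fun z => bar (g z) (T z) (β z)) S := by
  unfold bar; fun_prop

@[fun_prop] theorem cO_tr2 (hH : ContDiffOn 𝕜 m H S) (hk : ContDiffOn 𝕜 m k S) :
    ContDiffOn 𝕜 m (fun z => tr2 (H z) (k z)) S := by
  unfold tr2; fun_prop

@[fun_prop] theorem cO_up (hH : ContDiffOn 𝕜 m H S) (hk : ContDiffOn 𝕜 m k S) :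
    ContDiffOn 𝕜 m (fun z => up (H z) (k z)) S := by
  unfold up; fun_prop

@[fun_prop] theorem cO_uT (hH : ContDiffOn 𝕜 m H S) (hT : ContDiffOn 𝕜 m T S) :
    ContDiffOn 𝕜 m (fun z => uT (H z) (T z)) S := by
  unfold uT; fun_prop

@[fun_prop] theorem cO_vT (hH : ContDiffOn 𝕜 m H S) (hT : ContDiffOn 𝕜 m T S) :
    ContDiffOn 𝕜 m (fun z => vT (H z) (T z)) S := by
  unfold vT; fun_prop

@[fun_prop] theorem cO_gv (hH : ContDiffOn 𝕜 m H S) (hT : ContDiffOn 𝕜 m T S) :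
    ContDiffOn 𝕜 m (fun z => gv (H z) (T z)) S := by
  unfold gv; fun_prop

@[fun_prop] theorem cO_cc (hT : ContDiffOn 𝕜 m T S) (hτ : ContDiffOn 𝕜 m τ S) :
    ContDiffOn 𝕜 m (fun z => cc (T z) (τ z)) S := by
  unfold cc; fun_prop

@[fun_prop] theorem cO_ell (hH : ContDiffOn 𝕜 m H S) (hT : ContDiffOn 𝕜 m T S) :
    ContDiffOn 𝕜 m (fun z => ell (H z) (T z)) S := by
  unfold ell; fun_prop

@[fun_prop] theorem cO_lag (hs : ContDiffOn 𝕜 m s S) (hH : ContDiffOn 𝕜 m H S) (hT : ContDiffOn 𝕜 m T S) (hρ : ContDiffOn 𝕜 m ρ S) :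
    ContDiffOn 𝕜 m (fun z => lag (s z) (H z) (T z) (ρ z)) S := by
  unfold lag; fun_prop

@[fun_prop] theorem cO_ip1 (hH : ContDiffOn 𝕜 m H S) (hu : ContDiffOn 𝕜 m u S) (hv : ContDiffOn 𝕜 m v S) :
    ContDiffOn 𝕜 m (fun z => ip1 (H z) (u z) (v z)) S := by
  unfold ip1; fun_prop

@[fun_prop] theorem cO_gau (hs : ContDiffOn 𝕜 m s S) (hH : ContDiffOn 𝕜 m H S) (hT : ContDiffOn 𝕜 m T S) :
    ContDiffOn 𝕜 m (fun z => gau (s z) (H z) (T z)) S := by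
  unfold gau; fun_prop

@[fun_prop] theorem cO_fgf (hs : ContDiffOn 𝕜 m s S) (hH : ContDiffOn 𝕜 m H S) (hT : ContDiffOn 𝕜 m T S) (hρ : ContDiffOn 𝕜 m ρ S) :
    ContDiffOn 𝕜 m (fun z => fgf (s z) (H z) (T z) (ρ z)) S := by
  unfold fgf; fun_prop

@[fun_prop] theorem cO_vG (hs : ContDiffOn 𝕜 m s S) (hH : ContDiffOn 𝕜 m H S) (hk : ContDiffOn 𝕜 m k S) :
    ContDiffOn 𝕜 m (fun z => vG (s z) (H z) (k z)) S := by
  unfold vG; fun_prop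

@[fun_prop] theorem cO_fl (hH : ContDiffOn 𝕜 m H S) (hT : ContDiffOn 𝕜 m T S) :
    ContDiffOn 𝕜 m (fun z => fl (H z) (T z)) S := by
  unfold fl; fun_prop

@[fun_prop] theorem cO_flux (hs : ContDiffOn 𝕜 m s S) (hH : ContDiffOn 𝕜 m H S) (hT : ContDiffOn 𝕜 m T S) :
    ContDiffOn 𝕜 m (fun z => flux (s z) (H z) (T z)) S := by
  unfold flux; fun_prop

@[fun_prop] theorem cO_wL (hs : ContDiffOn 𝕜 m s S) (hH : ContDiffOn 𝕜 m H S) (hT : ContDiffOn 𝕜 m T S) (hk : ContDiffOn 𝕜 m k S) :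
    ContDiffOn 𝕜 m (fun z => wL (s z) (H z) (T z) (k z)) S := by
  unfold wL; fun_prop

@[fun_prop] theorem cO_wF (hs : ContDiffOn 𝕜 m s S) (hH : ContDiffOn 𝕜 m H S) (hT : ContDiffOn 𝕜 m T S) (hk : ContDiffOn 𝕜 m k S) :
    ContDiffOn 𝕜 m (fun z => wF (s z) (H z) (T z) (k z)) S := by
  unfold wF; fun_prop

@[fun_prop] theorem cO_dchr (hH : ContDiffOn 𝕜 m H S) (hT : ContDiffOn 𝕜 m T S) (hk : ContDiffOn 𝕜 m k S) (hτ : ContDiffOn 𝕜 m τ S) :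
    ContDiffOn 𝕜 m (fun z => dchr (H z) (T z) (k z) (τ z)) S := by
  unfold dchr; fun_prop

@[fun_prop] theorem cO_dgv (hH : ContDiffOn 𝕜 m H S) (hT : ContDiffOn 𝕜 m T S) (hk : ContDiffOn 𝕜 m k S) (hτ : ContDiffOn 𝕜 m τ S) :
    ContDiffOn 𝕜 m (fun z => dgv (H z) (T z) (k z) (τ z)) S := by
  unfold dgv; fun_prop

@[fun_prop] theorem cO_dlag (hs : ContDiffOn 𝕜 m s S) (hH : ContDiffOn 𝕜 m H S) (hT : ContDiffOn 𝕜 m T S) (hρ : ContDiffOn 𝕜 m ρ S) (hk : ContDiffOn 𝕜 m k S) (hτ : ContDiffOn 𝕜 m τ S) :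
    ContDiffOn 𝕜 m (fun z => dlag (s z) (H z) (T z) (ρ z) (k z) (τ z)) S := by
  unfold dlag; fun_prop

@[fun_prop] theorem cO_dgau (hs : ContDiffOn 𝕜 m s S) (hH : ContDiffOn 𝕜 m H S) (hT : ContDiffOn 𝕜 m T S) (hk : ContDiffOn 𝕜 m k S) (hτ : ContDiffOn 𝕜 m τ S) :
    ContDiffOn 𝕜 m (fun z => dgau (s z) (H z) (T z) (k z) (τ z)) S := by
  unfold dgau; fun_prop

@[fun_prop] theorem cO_dfgf (hs : ContDiffOn 𝕜 m s S) (hH : ContDiffOn 𝕜 m H S) (hT : ContDiffOn 𝕜 m T S) (hρ : ContDiffOn 𝕜 m ρ S) (hk : ContDiffOn 𝕜 m k S) (hτ : ContDiffOn 𝕜 m τ S) :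
    ContDiffOn 𝕜 m (fun z => dfgf (s z) (H z) (T z) (ρ z) (k z) (τ z)) S := by
  unfold dfgf; fun_prop

@[fun_prop] theorem cO_ricC (hT : ContDiffOn 𝕜 m T S) (hQ : ContDiffOn 𝕜 m Q S) :
    ContDiffOn 𝕜 m (fun z => ricC (T z) (Q z)) S := by
  unfold ricC; fun_prop

@[fun_prop] theorem cO_ricJ (hH : ContDiffOn 𝕜 m H S) (hT : ContDiffOn 𝕜 m T S) (hQ : ContDiffOn 𝕜 m Q S) :
    ContDiffOn 𝕜 m (fun z => ricJ (H z) (T z) (Q z)) S := by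
  unfold ricJ; fun_prop

@[fun_prop] theorem cO_redJ (hH : ContDiffOn 𝕜 m H S) (hT : ContDiffOn 𝕜 m T S) (hQ : ContDiffOn 𝕜 m Q S) :
    ContDiffOn 𝕜 m (fun z => redJ (H z) (T z) (Q z)) S := by
  unfold redJ; fun_prop

@[fun_prop] theorem cO_qd (hH : ContDiffOn 𝕜 m H S) (hT : ContDiffOn 𝕜 m T S) :
    ContDiffOn 𝕜 m (fun z => qd (H z) (T z)) S := by
  unfold qd; fun_prop

@[fun_prop] theorem cO_lapJ (hH : ContDiffOn 𝕜 m H S) (hQ : ContDiffOn 𝕜 m Q S) :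
    ContDiffOn 𝕜 m (fun z => lapJ (H z) (Q z)) S := by
  unfold lapJ; fun_prop

@[fun_prop] theorem cO_bar3 (hT : ContDiffOn 𝕜 m T S) (hQ : ContDiffOn 𝕜 m Q S) (hβ : ContDiffOn 𝕜 m β S) :
    ContDiffOn 𝕜 m (fun z => bar3 (T z) (Q z) (β z)) S := by
  unfold bar3; fun_prop

@[fun_prop] theorem cO_rie (hβ : ContDiffOn 𝕜 m β S) (hQ : ContDiffOn 𝕜 m Q S) :
    ContDiffOn 𝕜 m (fun z => rie (β z) (Q z)) S := by
  unfold rie; fun_prop

@[fun_prop] theorem cO_dbar (hg : ContDiffOn 𝕜 m g S) (hT : ContDiffOn 𝕜 m T S) (hQ : ContDiffOn 𝕜 m Q S) (hβ : ContDiffOn 𝕜 m β S) (hR : ContDiffOn 𝕜 m R S) :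
    ContDiffOn 𝕜 m (fun z => dbar (g z) (T z) (Q z) (β z) (R z)) S := by
  unfold dbar; fun_prop

@[fun_prop] theorem cO_cvJ (hg : ContDiffOn 𝕜 m g S) (hH : ContDiffOn 𝕜 m H S) (hR : ContDiffOn 𝕜 m R S) :
    ContDiffOn 𝕜 m (fun z => cvJ (g z) (H z) (R z)) S := by
  unfold cvJ; fun_prop

end Crest.Agent.N207.Lg

end
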